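import Vale.Agent.P366K2.Defs
import Mathlib.Analysis.Calculus.ParametricIntegral
import Mathlib.Analysis.Calculus.BumpFunction.Normed

/-!
P366K2: regularisation of measures.
-/

open MeasureTheory Metric Filter Topology Set
open scoped ContDiff NNReal
open Vale.Agent.P366.Stmt

noncomputable section

namespace Vale.Agent.P366K2

variable {n : ℕ} {W : Type} [MeasurableSpace W] {G G' φ ψ : E n → ℝ} {x y : E n} {c ε r K : ℝ}

/-- The coordinate vectors. -/
abbrev ev (k : Fin n) : E n := EuclideanSpace.single k 1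

theorem norm_ev (k : Fin n) : ‖ev k‖ = 1 := by simp

theorem pd_eq (h : DifferentiableAt ℝ G x) (k : Fin n) : pd k G x = fderiv ℝ G x (ev k) :=
  h.lineDeriv_eq_fderiv

theorem sum_ev (v : E n) : ∑ k, v k • ev k = v := by
  ext i
  simp [Pi.single_apply]

theorem fd_sum (h : DifferentiableAt ℝ G x) (v : E n) :
    fderiv ℝ G x v = ∑ k, v k * pd k G x := by
  conv_lhs => rw [← sum_ev v]
  simp only [map_sum, map_smul, pd_eq h, smul_eq_mul]

theorem fd_le (h : DifferentiableAt ℝ G x) : ‖fderiv ℝ G x‖ ≤ ∑ k, |pd k G x| :=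
  ContinuousLinearMap.opNorm_le_bound _ (Finset.sum_nonneg fun _ _ => abs_nonneg _) fun v => by
    rw [fd_sum h, Finset.sum_mul]
    refine (Finset.abs_sum_le_sum_abs _ _).trans (Finset.sum_le_sum fun k _ => ?_)
    rw [abs_mul, mul_comm]
    exact mul_le_mul_of_nonneg_left (PiLp.norm_apply_le v k) (abs_nonneg _)

theorem pd_le (h : DifferentiableAt ℝ G x) (k : Fin n) : |pd k G x| ≤ ‖fderiv ℝ G x‖ := by
  rw [pd_eq h]
  simpa using (fderiv ℝ G x).le_opNorm (ev k)

theorem pd_cd {m : WithTop ℕ∞} (h : ContDiff ℝ (m + 1) G) (k : Fin n) : ContDiff ℝ m (pd k G) := by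
  rw [show pd k G = fun x => fderiv ℝ G x (ev k) from funext fun x =>
    pd_eq (h.differentiable (by simp) x) k]
  exact (h.fderiv_right le_rfl).clm_apply contDiff_const

theorem pd_sm (h : ContDiff ℝ ∞ G) (k : Fin n) : ContDiff ℝ ∞ (pd k G) := pd_cd (by simpa using h) k

theorem pd_supp (h : Differentiable ℝ G) (k : Fin n) : tsupport (pd k G) ⊆ tsupport G := by
  rw [show pd k G = fun x => fderiv ℝ G x (ev k) from funext fun x => pd_eq (h x) k]
  exact (tsupport_comp_subset (g := fun L : E n →L[ℝ] ℝ => L (ev k)) rfl (fderiv ℝ G)).trans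
    (tsupport_fderiv_subset ℝ)

theorem pd_of {L : E n →L[ℝ] ℝ} (h : HasFDerivAt G L x) (k : Fin n) : pd k G x = L (ev k) := by
  rw [pd_eq h.differentiableAt, h.fderiv]

theorem Tst.pd {U : Set (E n)} (h : Tst U φ) (k : Fin n) : Tst U (pd k φ) :=
  have a := pd_supp (h.sm.differentiable (by simp)) k
  ⟨pd_sm h.sm k, h.cpt.of_isClosed_subset (isClosed_tsupport _) a, a.trans h.sub⟩

theorem Tst.mono {U V : Set (E n)} (h : Tst U φ) (e : U ⊆ V) : Tst V φ := ⟨h.sm, h.cpt, h.sub.trans e⟩

theorem pd_rfl (h : Differentiable ℝ G) (k : Fin n) (x : E n) :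
    pd k (fun y => G (x - y)) = fun y => -pd k G (x - y) := by
  funext y
  refine (pd_of ((h (x - y)).hasFDerivAt.comp y ((hasFDerivAt_id y).const_sub x)) k).trans ?_
  simp [pd_eq (h _)]

theorem pd_line (h : Differentiable ℝ G) (k : Fin n) (x : E n) (t : ℝ) :
    HasDerivAt (fun t : ℝ => G (x + t • ev k)) (pd k G (x + t • ev k)) t := by
  rw [pd_eq (h _)]
  exact ((h (x + t • ev k)).hasFDerivAt.comp_hasDerivAt t
    (((hasDerivAt_id t).smul_const (ev k)).const_add x)).congr_deriv (by simp)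

/-- Bounded with bounded and continuous derivative. -/
structure B1 (G : E n → ℝ) : Prop where
  cd : ContDiff ℝ 1 G
  bd : ∃ c, ∀ y, |G y| ≤ c ∧ ‖fderiv ℝ G y‖ ≤ c

theorem B1.dif (h : B1 G) : Differentiable ℝ G := h.cd.differentiable (by simp)

theorem Tst.b1 {U : Set (E n)} (h : Tst U φ) : B1 φ := by
  obtain ⟨a, ha⟩ := h.cpt.exists_bound_of_continuous h.sm.continuous
  obtain ⟨b, hb⟩ := (h.cpt.fderiv (𝕜 := ℝ)).exists_bound_of_continuous
    (h.sm.continuous_fderiv (by simp))
  exact ⟨h.sm.of_le (by simp), max a b, fun y =>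
    ⟨(ha y).trans (le_max_left _ _), (hb y).trans (le_max_right _ _)⟩⟩

/-- A signed measure on the coordinate space. -/
structure Tr (m : Measure W) (π : W → E n) (θ : W → ℝ) : Prop where
  sf : SFinite m
  mπ : Measurable π
  int : Integrable θ m

/-- The pairing, and the regularisation. -/
def pr (m : Measure W) (π : W → E n) (θ : W → ℝ) (φ : E n → ℝ) : ℝ := ∫ w, φ (π w) * θ w ∂m
def ml (m : Measure W) (π : W → E n) (θ : W → ℝ) (G : E n → ℝ) (x : E n) : ℝ :=
  pr m π θ fun y => G (x - y)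

namespace Tr

variable {m : Measure W} {π : W → E n} {θ θ' : W → ℝ} (t : Tr m π θ)
include t

theorem ig (h : Measurable φ) (b : ∀ y, |φ y| ≤ c) : Integrable (fun w => φ (π w) * θ w) m :=
  t.int.bdd_mul (h.comp t.mπ).aestronglyMeasurable (.of_forall fun _ => b _)

theorem igc (h : Continuous φ) (k : HasCompactSupport φ) : Integrable (fun w => φ (π w) * θ w) m :=
  let ⟨_, b⟩ := k.exists_bound_of_continuous h
  t.ig h.measurable b

theorem pr_le (b : ∀ y, |φ y| ≤ c) : |pr m π θ φ| ≤ c * ∫ w, |θ w| ∂m := by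
  rw [← integral_const_mul, pr, ← Real.norm_eq_abs]
  refine norm_integral_le_of_norm_le (t.int.abs.const_mul c) (.of_forall fun w => ?_)
  rw [Real.norm_eq_abs, abs_mul]
  exact mul_le_mul_of_nonneg_right (b _) (abs_nonneg _)

/-- Domination. -/
theorem pr_dom (d : ∀ w, |θ' w| ≤ K * θ w) (h : Measurable ψ) (b : ∀ y, |ψ y| ≤ c)
    (e : ∀ y, |φ y| ≤ ψ y) : |pr m π θ' φ| ≤ K * pr m π θ ψ := by
  rw [pr, pr, ← integral_const_mul, ← Real.norm_eq_abs]
  refine norm_integral_le_of_norm_le ((t.ig h b).const_mul K) (.of_forall fun w => ?_)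
  rw [Real.norm_eq_abs, abs_mul, mul_left_comm]
  exact mul_le_mul (e _) (d w) (abs_nonneg _) ((abs_nonneg _).trans (e _))

theorem ml_fd (h : B1 G) (x : E n) :
    HasFDerivAt (ml m π θ G) (∫ w, θ w • fderiv ℝ G (x - π w) ∂m) x := by
  obtain ⟨c, b⟩ := h.bd
  have c1 := h.cd.continuous
  have c2 := h.cd.continuous_fderiv (by simp)
  refine hasFDerivAt_integral_of_dominated_of_fderiv_le (s := univ) (bound := fun w => |θ w| * c)
    (F := fun x w => G (x - π w) * θ w) (F' := fun x w => θ w • fderiv ℝ G (x - π w)) univ_mem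
    (.of_forall fun x => (t.ig (by fun_prop) fun y => (b (x - y)).1).1)
    (t.ig (by fun_prop) fun y => (b (x - y)).1)
    (t.int.1.smul (c2.measurable.comp (measurable_const.sub t.mπ)).aestronglyMeasurable)
    (.of_forall fun w x _ => ?_) (t.int.abs.mul_const c) (.of_forall fun w x _ => ?_)
  · rw [norm_smul]
    exact mul_le_mul_of_nonneg_left (b _).2 (abs_nonneg _)
  · simpa using ((h.dif (x - π w)).hasFDerivAt.comp x ((hasFDerivAt_id x).sub_const (π w))).mul_const
      (θ w)

theorem ml_b1 (h : B1 G) : B1 (ml m π θ G) ∧ ∀ k, pd k (ml m π θ G) = ml m π θ (pd k G) := by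
  obtain ⟨c, b⟩ := h.bd
  have c2 := h.cd.continuous_fderiv (by simp)
  have ms : ∀ x, AEStronglyMeasurable (fun w => θ w • fderiv ℝ G (x - π w)) m := fun x =>
    t.int.1.smul (c2.measurable.comp ((measurable_const (a := x)).sub t.mπ)).aestronglyMeasurable
  have bd : ∀ x w, ‖θ w • fderiv ℝ G (x - π w)‖ ≤ |θ w| * c := fun x w => by
    rw [norm_smul]
    exact mul_le_mul_of_nonneg_left (b _).2 (abs_nonneg _)
  have e : fderiv ℝ (ml m π θ G) = _ := funext fun x => (t.ml_fd h x).fderiv
  refine ⟨⟨contDiff_one_iff_fderiv.2 ⟨fun x => (t.ml_fd h x).differentiableAt, e ▸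
    continuous_of_dominated ms (fun x => .of_forall (bd x)) (t.int.abs.mul_const c)
      (.of_forall fun w => by fun_prop)⟩, c * ∫ w, |θ w| ∂m, fun x =>
    ⟨t.pr_le fun y => (b _).1, ?_⟩⟩, fun k => funext fun x => ?_⟩
  · rw [e, mul_comm, ← integral_mul_const]
    exact norm_integral_le_of_norm_le (t.int.abs.mul_const c) (.of_forall (bd x))
  · rw [pd_of (t.ml_fd h x), ContinuousLinearMap.integral_apply
      ((t.int.abs.mul_const c).mono' (ms x) (.of_forall (bd x)))]
    exact integral_congr_ae (.of_forall fun w => by simp [pd_eq (h.dif _), mul_comm])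

/-- Fubini. -/
theorem fub (h : Continuous G) (b : ∀ y, |G y| ≤ c) {μ : Measure (E n)} [SFinite μ]
    (i : Integrable φ μ) :
    ∫ x, ml m π θ G x * φ x ∂μ = pr m π θ fun y => ∫ x, G (x - y) * φ x ∂μ := by
  have := t.sf
  have := t.mπ
  have k : Integrable (fun p : E n × W => G (p.1 - π p.2) * (φ p.1 * θ p.2)) (μ.prod m) :=
    (i.mul_prod t.int).bdd_mul (by fun_prop : Measurable _).aestronglyMeasurable
      (.of_forall fun _ => b _)
  simp only [ml, pr, ← integral_mul_const]
  rw [← integral_integral_swap (f := fun x w => G (x - π w) * φ x * θ w)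
    (k.congr (.of_forall fun _ => (mul_assoc _ _ _).symm))]
  simp only [mul_right_comm]

theorem ml_sym (h : Continuous G) (k : HasCompactSupport G) (h' : Continuous G')
    (k' : HasCompactSupport G') (x : E n) :
    ∫ y, ml m π θ G y * G' (x - y) = ∫ y, ml m π θ G' y * G (x - y) := by
  obtain ⟨_, b⟩ := k.exists_bound_of_continuous h
  obtain ⟨_, b'⟩ := k'.exists_bound_of_continuous h'
  rw [t.fub h b ((h'.integrable_of_hasCompactSupport k').comp_sub_left x),
    t.fub h' b' ((h.integrable_of_hasCompactSupport k).comp_sub_left x)]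
  refine congrArg _ (funext fun z => ?_)
  rw [← integral_sub_left_eq_self _ volume (x + z)]
  refine integral_congr_ae (.of_forall fun y => ?_)
  simp only [mul_comm (G' (y - z))]
  congr 2 <;> abel

end Tr

/-- Mollifiers of the scale ε. -/
structure Ml (ε c : ℝ) (G : E n → ℝ) : Prop where
  sm : ContDiff ℝ ∞ G
  nn : ∀ y, 0 ≤ G y
  sp : tsupport G ⊆ closedBall 0 (2 * ε)
  dm : ∀ y ∈ tsupport G, ∀ z ∈ tsupport G, ‖y - z‖ ≤ ε
  one : ∫ y, G y = 1
  le : ∀ y, G y ≤ c * ε⁻¹ ^ n
  le' : ∀ k y, |pd k G y| ≤ c * ε⁻¹ ^ (n + 1)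

theorem Ml.tst (h : Ml ε c G) : Tst univ G :=
  ⟨h.sm, (isCompact_closedBall _ _).of_isClosed_subset (isClosed_tsupport _) h.sp, subset_univ _⟩

theorem supp_rfl (x : E n) {S : Set (E n)} (hS : IsClosed S) (h : ∀ y, x - y ∈ tsupport G → y ∈ S) :
    tsupport (fun y => G (x - y)) ⊆ S :=
  closure_minimal (fun y hy => h y (subset_tsupport _ hy)) hS

theorem Ml.mem (h : Ml ε c G) (e : x - y ∈ tsupport G) : y ∈ closedBall x (2 * ε) := by
  rw [mem_closedBall_iff_norm']
  exact mem_closedBall_zero_iff.1 (h.sp e)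

theorem ex_ml (v : E n) (hv : ‖v‖ ≤ 3 / 2) : ∃ c ≥ 0, ∀ ε > 0, ∃ G, Ml ε c G ∧
    tsupport G ⊆ closedBall (-(ε • v)) (ε / 2) := by
  let b : ContDiffBump (0 : E n) := ⟨1 / 4, 1 / 2, by norm_num, by norm_num⟩
  have T : Tst univ (b.normed volume) := ⟨b.contDiff_normed, b.hasCompactSupport_normed, subset_univ _⟩
  obtain ⟨c, hc⟩ := T.b1.bd
  refine ⟨c, (abs_nonneg _).trans (hc 0).1, fun ε e => ?_⟩
  have e' : 0 < ε⁻¹ ^ n := by positivity
  have sp : tsupport (fun y => ε⁻¹ ^ n * b.normed volume (ε⁻¹ • (y + ε • v))) ⊆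
      closedBall (-(ε • v)) (ε / 2) := closure_minimal (fun y hy => by
    have : ε⁻¹ • (y + ε • v) ∈ Function.support (b.normed volume) := right_ne_zero_of_mul hy
    rw [b.support_normed_eq, mem_ball_zero_iff, norm_smul, Real.norm_of_nonneg (by positivity),
      inv_mul_lt_iff₀ e] at this
    rw [mem_closedBall_iff_norm, sub_neg_eq_add]
    simp only [b] at this
    linarith) isClosed_closedBall
  refine ⟨fun y => ε⁻¹ ^ n * b.normed volume (ε⁻¹ • (y + ε • v)),
    ⟨contDiff_const.mul (T.sm.comp (by fun_prop)),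
    fun y => mul_nonneg e'.le (b.nonneg_normed _), sp.trans (closedBall_subset_closedBall' ?_),
    fun y hy z hz => (dist_triangle_right y z _).trans ((add_le_add (sp hy) (sp hz)).trans_eq
      (add_halves ε)), ?_,
    fun y => ?_, fun k y => ?_⟩, sp⟩
  · rw [dist_zero_right, norm_neg, norm_smul, Real.norm_of_nonneg e.le]
    nlinarith
  · rw [integral_const_mul, integral_add_right_eq_self (fun y => b.normed volume (ε⁻¹ • y)),
      Measure.integral_comp_inv_smul_of_nonneg _ _ e.le, b.integral_normed]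
    simp [e.ne']
  · rw [mul_comm]
    exact mul_le_mul_of_nonneg_right ((le_abs_self _).trans (hc _).1) e'.le
  · have := ((T.b1.dif (ε⁻¹ • (y + ε • v))).hasFDerivAt.comp y
      (((hasFDerivAt_id y).add_const (ε • v)).const_smul ε⁻¹)).const_mul (ε⁻¹ ^ n)
    refine (congrArg abs (pd_of this k)).trans_le ?_
    have k := (fderiv ℝ (b.normed volume) _).le_of_opNorm_le (hc (ε⁻¹ • (y + ε • v))).2 (ev k)
    simp only [smul_apply, ContinuousLinearMap.comp_apply, ContinuousLinearMap.id_apply, map_smul,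
      smul_eq_mul, abs_mul, abs_of_pos e', abs_of_pos (inv_pos.2 e), pow_succ]
    rw [norm_ev, mul_one, Real.norm_eq_abs] at k
    nlinarith [mul_le_mul_of_nonneg_left k (mul_pos e' (inv_pos.2 e)).le]

theorem cpt_rfl (h : HasCompactSupport G) (x : E n) : HasCompactSupport fun y => G (x - y) :=
  h.comp_homeomorph (Homeomorph.subLeft x)

theorem cl_rfl (G : E n → ℝ) (x : E n) : IsClosed {y | x - y ∈ tsupport G} :=
  (isClosed_tsupport G).preimage (by fun_prop)

theorem Ml.rfl (h : Ml ε c G) {U : Set (E n)} (e : ∀ y, x - y ∈ tsupport G → y ∈ U) :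
    Tst U fun y => G (x - y) := ⟨h.sm.comp (contDiff_const.sub contDiff_id), cpt_rfl h.tst.cpt x,
  (supp_rfl x (cl_rfl G x) fun _ k => k).trans e⟩

theorem cont_mul {U : Set (E n)} (hU : IsOpen U) {u : E n → ℝ} (hu : ContinuousOn u U)
    (h : Continuous φ) (e : tsupport φ ⊆ U) : Continuous fun y => u y * φ y :=
  (hu.mul h.continuousOn).continuous_of_tsupport_subset hU (tsupport_mul_subset_right.trans e)

/-- Averages are close to the value. -/
theorem Ml.avg (h : Ml ε c G) {u : E n → ℝ} {U : Set (E n)} (hU : IsOpen U) (hu : ContinuousOn u U)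
    {a d : ℝ} (e : ∀ y, x - y ∈ tsupport G → y ∈ U ∧ |u y - a| ≤ d) :
    |(∫ y, u y * G (x - y)) - a| ≤ d := by
  have i := (h.sm.continuous.integrable_of_hasCompactSupport (μ := volume) h.tst.cpt).comp_sub_left x
  have o : ∫ y, G (x - y) = 1 := (integral_sub_left_eq_self _ volume x).trans h.one
  have T := h.rfl fun y k => (e y k).1
  have i2 : Integrable fun y => u y * G (x - y) :=
    (cont_mul hU hu T.sm.continuous T.sub).integrable_of_hasCompactSupport T.cpt.mul_left
  rw [← mul_one a, ← mul_one d, ← o, ← integral_const_mul, ← integral_const_mul,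
    ← integral_sub i2 (i.const_mul a), ← Real.norm_eq_abs]
  refine norm_integral_le_of_norm_le (i.const_mul d) (.of_forall fun y => ?_)
  rw [← sub_mul, Real.norm_eq_abs, abs_mul, abs_of_nonneg (h.nn _)]
  by_cases k : x - y ∈ tsupport G
  · exact mul_le_mul_of_nonneg_right (e y k).2 (h.nn _)
  · simp [image_eq_zero_of_notMem_tsupport k]

/-- Taylor expansion from below. -/
theorem taylor {h h' h'' : ℝ → ℝ} {s : ℝ} (d : ∀ t, HasDerivAt h (h' t) t)
    (d' : ∀ t, HasDerivAt h' (h'' t) t) (b : ∀ t ∈ uIcc 0 s, -K ≤ h'' t) :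
    h 0 + s * h' 0 - K * s ^ 2 / 2 ≤ h s := by
  have cv : ConvexOn ℝ (uIcc 0 s) fun t => h t + K * t ^ 2 / 2 := by
    have d1 : ∀ t, HasDerivAt (fun t => h t + K * t ^ 2 / 2) (h' t + K * t) t := fun t =>
      ((d t).add (((hasDerivAt_pow 2 t).const_mul K).div_const 2)).congr_deriv (by simp; ring)
    have d2 : ∀ t, HasDerivAt (fun t => h' t + K * t) (h'' t + K) t := fun t =>
      ((d' t).add ((hasDerivAt_id t).const_mul K)).congr_deriv (by simp)
    exact convexOn_of_hasDerivWithinAt2_nonneg (convex_uIcc 0 s)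
      (fun t _ => (d1 t).continuousAt.continuousWithinAt) (fun t _ => (d1 t).hasDerivWithinAt)
      (fun t _ => (d2 t).hasDerivWithinAt) fun t ht => by linarith [b t (interior_subset ht)]
  have d0 : HasDerivAt (fun t => h t + K * t ^ 2 / 2) (h' 0) 0 :=
    ((d 0).add (((hasDerivAt_pow 2 0).const_mul K).div_const 2)).congr_deriv (by simp)
  rcases lt_trichotomy s 0 with k | rfl | k
  · have := cv.slope_le_of_hasDerivAt right_mem_uIcc left_mem_uIcc k d0
    rw [slope_def_field, div_le_iff₀ (by linarith)] at this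
    nlinarith
  · simp
  · have := cv.le_slope_of_hasDerivAt left_mem_uIcc right_mem_uIcc k d0
    rw [slope_def_field, le_div_iff₀ (by linarith)] at this
    nlinarith

end Vale.Agent.P366K2
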