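import Vale.Agent.P366.Stmt

/-!
# P366K2: multipliers and their regularity; exact statements
-/

open MeasureTheory Metric Filter Topology Set
open scoped ContDiff NNReal
open Vale.Agent.P366.Stmt

noncomputable section

namespace Vale.Agent.P366K2

/-- HBR: a concave family without a positive member has a multiplier. -/
def HBR : Prop := ∀ (K V : Type) [TopologicalSpace K] [CompactSpace K] [T2Space K]
  [MeasurableSpace K] [BorelSpace K] [Nonempty V] (c : V → C(K, ℝ)),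
  (∀ v w, ∀ s ∈ Icc (0 : ℝ) 1, ∃ u, ∀ x, s * c v x + (1 - s) * c w x ≤ c u x) →
  (∀ v, ∃ x, c v x ≤ 0) → ∃ μ : Measure K, IsProbabilityMeasure μ ∧ ∀ v, ∫ x, c v x ∂μ ≤ 0

variable {n : ℕ} {ι W : Type} [Fintype ι] [MeasurableSpace W]

/-- Test functions on U. -/
structure Tst (U : Set (E n)) (φ : E n → ℝ) : Prop where
  sm : ContDiff ℝ ∞ φ
  cpt : HasCompactSupport φ
  sub : tsupport φ ⊆ U

/-- Measures on the coordinate space with values in ι → ℝ, dominated by the component o, and the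
coefficients of a system of second order. -/
structure Sy (n : ℕ) (ι W : Type) [MeasurableSpace W] where
  m : Measure W
  π : W → E n
  θ : ι → W → ℝ
  o : ι
  A : ι → Fin n → Fin n → ι → Fin n → E n → ℝ
  B : ι → Fin n → Fin n → ι → E n → ℝ

namespace Sy

variable (s : Sy n ι W)

/-- The pairing of the component α with φ. -/
def pr (α : ι) (φ : E n → ℝ) : ℝ := ∫ w, φ (s.π w) * s.θ α w ∂s.m

/-- The defect of the equation. -/
def df (α : ι) (a b : Fin n) (φ : E n → ℝ) : ℝ := s.pr α (pd a (pd b φ)) -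
  ∑ β, s.pr β fun x => ∑ k, s.A α a b β k x * pd k φ x + s.B α a b β x * φ x

structure Ok (U : Set (E n)) : Prop where
  opn : IsOpen U
  sf : SFinite s.m
  mπ : Measurable s.π
  int : ∀ α, Integrable (s.θ α) s.m
  nn : ∀ w, 0 ≤ s.θ s.o w
  dom : ∃ C, ∀ α w, |s.θ α w| ≤ C * s.θ s.o w
  sA : ∀ α a b β k, ContDiffOn ℝ ∞ (s.A α a b β k) U
  sB : ∀ α a b β, ContDiffOn ℝ ∞ (s.B α a b β) U

/-- The system on U: equations for the components other than o, inequalities for o. -/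
structure Wk (U : Set (E n)) : Prop where
  eq : ∀ α ≠ s.o, ∀ a φ, Tst U φ → s.df α a a φ = 0
  ge : ∀ a φ, Tst U φ → (∀ x, 0 ≤ φ x) → 0 ≤ s.df s.o a a φ

/-- The functions f represent the measures on U. -/
def Rep (U : Set (E n)) (f : ι → E n → ℝ) : Prop := (∀ α, ContinuousOn (f α) U) ∧
  ∀ α φ, Continuous φ → HasCompactSupport φ → tsupport φ ⊆ U → s.pr α φ = ∫ x, f α x * φ x

end Sy

/-- REG: in the interior the measures are locally Lipschitz functions. -/
def REG : Prop := ∀ (n : ℕ) (ι W : Type) [Fintype ι] [MeasurableSpace W] (s : Sy n ι W) U,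
  s.Ok U → s.Wk U → ∃ f, s.Rep U f ∧ ∀ α, LocallyLipschitzOn U (f α)

/-- SMO: they are smooth where there is no source. -/
def SMO : Prop := ∀ (n : ℕ) (ι W : Type) [Fintype ι] [MeasurableSpace W] (s : Sy n ι W) U f,
  s.Ok U → (∀ α a b φ, Tst U φ → s.df α a b φ = 0) → s.Rep U f → ∀ α, ContDiffOn ℝ ∞ (f α) U

/-- REGB: Lipschitz bounds up to a flat boundary x i = 0. The source is a finite measure, and the
combination d of the components is nonnegative with trace zero. -/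
def REGB : Prop := ∀ (n : ℕ) (ι W : Type) [Fintype ι] [MeasurableSpace W] (s : Sy n ι W) U f
  (i : Fin n) (β : Measure (E n)) (b : ι → E n → ℝ) (x : E n), s.Ok U →
  s.Wk (U ∩ {y | 0 < y i}) → s.Rep (U ∩ {y | 0 < y i}) f → IsFiniteMeasure β →
  (∀ α a φ, Tst (U ∩ {y | 0 < y i}) φ → |s.df α i a φ| ≤ ∫ y, |φ y| ∂β) →
  (∀ α, ContDiffOn ℝ ∞ (b α) U) → (∀ y ∈ U, b s.o y = 1) →
  (∀ w, s.π w ∈ U → 0 ≤ ∑ α, b α (s.π w) * s.θ α w) → x ∈ U → x i = 0 →
  (∃ r > 0, Tendsto (fun ε : ℝ => ε⁻¹ * ∫ w in s.π ⁻¹' {y | y ∈ ball x r ∧ y i ∈ Icc ε (2 * ε)},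
    ∑ α, b α (s.π w) * s.θ α w ∂s.m) (𝓝[>] 0) (𝓝 0)) →
  ∃ r > 0, ∃ L : ℝ≥0, ∀ α, LipschitzOnWith L (f α) (ball x r ∩ {y | 0 < y i})

end Vale.Agent.P366K2
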