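import Vale.Agent.P366K.Defs
import Vale.Agent.P366K2.Defs

/-!
P366K2: from the multipliers to the functions N, X; exact statements of the blocks.
-/

open MeasureTheory Metric Filter Topology Set
open scoped ContDiff NNReal
open Vale.Agent.P366 Vale.Agent.P366M Vale.Agent.P366K
open Vale.Agent.P366.Stmt (E)

noncomputable section

namespace Vale.Agent.P366K2

variable {n : ℕ} {M : Type} [Mfe n M] {W : Type} [MeasurableSpace W]

/-- The functions N, X of the chart e represent the measure wt ε * α on V. -/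
def Lc (D : Exterior n M) (ε : ℝ) (π : W → M) (ν : W → Fin n → ℝ) (α : Measure W) (e : Ch n M)
    (V : Set (E n)) (N : E n → ℝ) (X : Fin n → E n → ℝ) : Prop :=
  ∀ (f : M → ℝ) (ξ : Fin n → M → ℝ), Continuous f → CC 0 ξ →
    (∃ B ⊆ V, IsCompact B ∧ ∀ x ∉ e.symm '' B, f x = 0 ∧ ∀ j, ξ j x = 0) →
    ∫ w, wt ε (π w) * (f (π w) + ∑ j, ξ j (π w) * ν w j) ∂α =
      ∫ y, (N y * loc e f y + ∑ j, X j y * repC e ξ j y) * P366Z.dens (rep e D.g) y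

/-- The local result at x. -/
def Lo (D : Exterior n M) (ε : ℝ) (π : W → M) (ν : W → Fin n → ℝ) (α β : Measure W) (x : M) :
    Prop := ∃ e ∈ At M, x ∈ e.source ∧ ∃ (O : Set (E n)) (N : E n → ℝ) (X : Fin n → E n → ℝ)
  (L : ℝ≥0), IsOpen O ∧ e x ∈ O ∧ Lc D ε π ν α e (O ∩ {y | 0 < D.F (e.symm y)}) N X ∧
    LipschitzOnWith L N (O ∩ {y | 0 < D.F (e.symm y)}) ∧
    (∀ j, LipschitzOnWith L (X j) (O ∩ {y | 0 < D.F (e.symm y)})) ∧
    (x ∈ Us D π β → ContDiffAt ℝ ∞ N (e x) ∧ ∀ j, ContDiffAt ℝ ∞ (X j) (e x))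

/-- The global result. -/
def Gl (D : Exterior n M) (ε : ℝ) (π : W → M) (ν : W → Fin n → ℝ) (α β : Measure W) : Prop :=
  ∃ N X, Rp D ε π ν α N X ∧ ∀ e ∈ At M, ∀ y, e.symm y ∈ Us D π β →
    ContDiffAt ℝ ∞ (loc e N) y ∧ ∀ j, ContDiffAt ℝ ∞ (repV e X j) y

/-- No mass on the boundary, and the trace of N - X (ν) vanishes. -/
def Tc (D : Exterior n M) (ε : ℝ) (π : W → M) (ν : W → Fin n → ℝ) (α : Measure W) : Prop :=
  α (π ⁻¹' {x | D.F x = 0}) = 0 ∧ ∀ x, D.F x = 0 → ∃ O, IsOpen O ∧ x ∈ O ∧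
    (∃ R, ∀ z ∈ O, ‖px z‖ ≤ R) ∧ Tendsto (fun t : ℝ => t⁻¹ * ∫ w in π ⁻¹' (O ∩ {z | D.F z ∈ Icc t (2 * t)}),
      wt ε (π w) * (1 - gp D.g (nrm D.g D.F) (π w) (ν w)) ∂α) (𝓝[>] 0) (𝓝 0)

/-- A statement about all multipliers. -/
def AllM (B : ∀ (n : ℕ) (M : Type) [Mfe n M] (W : Type) [MeasurableSpace W], Exterior n M → ℝ →
    (W → M) → (W → Fin n → ℝ) → Measure W → Measure W → Prop) : Prop :=
  ∀ (n : ℕ) (M : Type) [Mfe n M] (W : Type) [MeasurableSpace W] (D : Exterior n M) (m : ℝ)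
    (P : Fin n → ℝ) (κ R1 R2 ε : ℝ) (Z : Fin n → M → ℝ) (π : W → M) (ν : W → Fin n → ℝ)
    (α β : Measure W) (η : Measure M) (c l : ℝ), Eqc D m P κ →
    Mm D m P κ R1 R2 ε Z π ν α β η c l → B n M W D ε π ν α β

def TRC : Prop := AllM fun _ _ _ _ _ D ε π ν α _ => Tc D ε π ν α
def LOC : Prop := AllM fun _ _ _ _ _ D ε π ν α β => Tc D ε π ν α →
  ∀ x, 0 ≤ D.F x → Lo D ε π ν α β x
def GLUE : Prop := AllM fun _ _ _ _ _ D ε π ν α β => Tc D ε π ν α →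
  (∀ x, 0 ≤ D.F x → Lo D ε π ν α β x) → Gl D ε π ν α β
def RPX : Prop := AllM fun _ _ _ _ _ D ε π ν α β => Gl D ε π ν α β

theorem rpx_of (a : TRC) (b : LOC) (c : GLUE) : RPX := by
  intro n M _ W _ D m P κ R1 R2 ε Z π ν α β η c' l h k
  have t := a n M W D m P κ R1 R2 ε Z π ν α β η c' l h k
  exact c n M W D m P κ R1 R2 ε Z π ν α β η c' l h k t
    (b n M W D m P κ R1 R2 ε Z π ν α β η c' l h k t)

end Vale.Agent.P366K2
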