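import Vale.Agent.P366K2.Bd1

/-!
P366K2: the uniform estimate near the boundary.
-/

open MeasureTheory Metric Filter Topology Set
open scoped ContDiff NNReal
open Vale.Agent.P366.Stmt

noncomputable section

set_option linter.unusedSectionVars false

namespace Vale.Agent.P366K2

variable {n : ℕ} {ι : Type} [Fintype ι] {μ : Measure (E n)} {ψ g : E n → ℝ} {x y y' : E n}
  {c R L ε κ η S T P K B τ σ r : ℝ} {i k : Fin n} {o α : ι} {u b : ι → E n → ℝ} {a J d : E n → ℝ}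

theorem ln_co (y : E n) (t : ℝ) (i : Fin n) : (y + t • ev i) i = y i + t := by simp

theorem ln_co' (e : k ≠ i) (y : E n) (t : ℝ) : (y + t • ev k) i = y i := by simp [e.symm]

theorem ln_nm (y : E n) (t : ℝ) (k : Fin n) : ‖y + t • ev k - y‖ = |t| := by
  simp [norm_smul]

theorem ln_le (x y : E n) (t : ℝ) (k : Fin n) : ‖y + t • ev k - x‖ ≤ ‖y - x‖ + |t| := by
  linarith [norm_sub_le_norm_sub_add_norm_sub (y + t • ev k) y x, ln_nm y t k]

namespace Fn

variable (h : Fn i o x R L ε κ η μ u b a J d)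
include h

theorem ad (m : Measurable ψ) (e : ∀ z, ψ z ∈ Icc (0 : ℝ) 1) (y : E n) (α : ι) :
    Ad o α L fun z => ψ z * b α (y + z) :=
  ⟨⟨m.mul ((h.mb α).comp (measurable_const_add y)), fun z => by
    rw [abs_mul, abs_of_nonneg (e z).1]
    exact (mul_le_of_le_one_left (abs_nonneg _) (e z).2).trans (h.bb α _)⟩,
    fun k z => by simpa [k, h.bo] using (e z).1⟩

/-- The comparison with d. -/
theorem cmp (m : Measurable ψ) (e : ∀ z, ψ z ∈ Icc (0 : ℝ) 1) (hy : y ∈ closedBall x (4 * R))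
    (hy' : y' ∈ closedBall x (4 * R)) :
    |∑ α, wa μ (fun z => ψ z * b α (y' + z)) (u α) y - wa μ ψ d y| ≤
      L * (‖y - y'‖ + 2 * ε) * wa μ 1 (u o) y := by
  have := h.pm
  have i1 := fun α => (h.b0 α).cb.igw (μ := μ) (h.ad m e y' α).toBm y
  have w : Bm 1 ψ := ⟨m, fun z => abs_le.2 ⟨by linarith [(e z).1], (e z).2⟩⟩
  rw [wa_one, ← integral_const_mul]
  simp only [wa]
  rw [← integral_finsetSum _ fun α _ => i1 α,
    ← integral_sub (integrable_finsetSum _ fun α _ => i1 α) (h.bd.cb.igw w y), ← Real.norm_eq_abs]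
  refine norm_integral_le_of_norm_le (((h.b0 o).cb.ig y).const_mul _) ?_
  filter_upwards [h.mem hy, h.mem hy'] with z k k'
  have q := h.dd _ k.1 _ k'.1
  rw [add_sub_add_right_eq_sub] at q
  rw [Real.norm_eq_abs, show ∑ α, u α (y + z) * (ψ z * b α (y' + z)) - d (y + z) * ψ z =
    ψ z * (∑ α, b α (y' + z) * u α (y + z) - d (y + z)) by
      rw [mul_sub, Finset.mul_sum]
      congr 1
      · exact Finset.sum_congr rfl fun _ _ => by ring
      · ring, abs_mul]
  exact (mul_le_of_le_one_left (abs_nonneg _) (w.b z)).trans q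

/-- The lower bound for the normal derivative. -/
theorem nor (hT : ∀ y ∈ closedBall x (2 * R), 0 ≤ y i → Ff μ u y ≤ T) (s1 : 2 * ε ≤ σ)
    (s3 : ε * T ≤ 1) (s4 : L ^ 4 * (T + 1) * σ ≤ 1) (s5 : 2 * (η + 2 * ε * L * T) ≤ σ)
    (m : Measurable ψ) (e : ∀ z, ψ z ∈ Icc (0 : ℝ) 1) (hy : ‖y - x‖ ≤ R) (h0 : σ ≤ y i)
    (hS : ∀ t ∈ Icc 0 (y i - σ), Ff μ u (y + (-t) • ev i) ≤ S)
    (hP : wa μ 1 (u o) (y + (σ - y i) • ev i) ≤ P)
    (hB : ∀ α ψ, Ad o α L ψ → wa μ ψ (pd i (u α)) y ≤ B) :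
    -wa μ ψ (pd i (u o)) y ≤ L * B + 3 * L * P + 2 + 2 * L ^ 3 * (S + 1) * (y i - σ) := by
  classical
  have := h.pm
  have e0 := h.ε0
  have L1 := h.L1
  have R0 := h.R0
  have yi : y i ≤ ‖y - x‖ := by simpa [h.x0] using (le_abs_self _).trans (co_le y x i)
  have T0 : 0 ≤ T := Ff_nn.trans (hT y (mem_closedBall_iff_norm.2 (by linarith)) (by linarith))
  have S0 : 0 ≤ S := Ff_nn.trans (hS 0 ⟨le_rfl, by linarith⟩)
  set p := y + (σ - y i) • ev i with hp
  have el : ∀ t, p + t • ev i = y + (σ - y i + t) • ev i := fun t => by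
    rw [hp, add_assoc, ← add_smul]
  have nm : ∀ t ∈ Icc (ε - σ) (y i - σ), ‖p + t • ev i - x‖ + ε ≤ 2 * R ∧ ε ≤ (p + t • ev i) i :=
    fun t ht => by
      rw [el, ln_co]
      have := ln_le x y (σ - y i + t) i
      rw [abs_of_nonpos (by linarith [ht.2])] at this
      exact ⟨by linarith [ht.1], by linarith [ht.1]⟩
  have mm : ∀ t ∈ Icc (ε - σ) (y i - σ), ∀ q ≥ 2, p + t • ev i ∈ closedBall x (q * R) :=
    fun t ht q hq => mem_closedBall_iff_norm.2 (by nlinarith [(nm t ht).1])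
  set y0 := p + (ε - σ) • ev i with hy0
  have w := h.ad m e y0
  have d1 := fun t => HasDerivAt.fun_sum (u := Finset.univ) fun α _ =>
    (w α).toBm.line (μ := μ) (h.b0 α) i p t
  have d2 := fun t => HasDerivAt.fun_sum (u := Finset.univ) fun α _ =>
    (w α).toBm.line (μ := μ) (h.b1 α i) i p t
  have lb : ∀ t ∈ Icc (ε - σ) (y i - σ), ∀ s ≥ 0, Ff μ u (p + t • ev i) ≤ s →
      -(2 * L ^ 3 * (s + 1)) ≤ ∑ α, wa μ (fun z => ψ z * b α (y0 + z)) (pd i (pd i (u α)))
        (p + t • ev i) := fun t ht s s0 hs => by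
    refine le_trans ?_ (Finset.card_nsmul_le_sum _ _ _ fun α _ =>
      h.sec' hT s3 (w α) (nm t ht).1 (nm t ht).2 hs)
    rw [nsmul_eq_mul, Finset.card_univ]
    nlinarith [mul_le_mul_of_nonneg_right h.cd' (show 0 ≤ 2 * L ^ 2 * (s + 1) by positivity)]
  have l0 : ε - σ ∈ Icc (ε - σ) (y i - σ) := ⟨le_rfl, by linarith⟩
  have l1 : (0 : ℝ) ∈ Icc (ε - σ) (y i - σ) := ⟨by linarith, by linarith⟩
  have t1 := taylor (s := ε - σ) d1 d2 fun t ht => by
    rw [uIcc_of_ge (by linarith)] at ht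
    have ht' : t ∈ Icc (ε - σ) (y i - σ) := ⟨ht.1, by linarith [ht.2]⟩
    exact lb t ht' T T0 (hT _ (mm t ht' 2 le_rfl) (by linarith [(nm t ht').2]))
  have t2 := (convex_Icc 0 (y i - σ)).mul_sub_le_image_sub_of_le_deriv
    (fun t _ => (d2 t).continuousAt.continuousWithinAt)
    (fun t _ => (d2 t).differentiableAt.differentiableWithinAt) (C := -(2 * L ^ 3 * (S + 1)))
    (fun t ht => by
      have ht := interior_subset ht
      rw [(d2 t).deriv]
      refine lb t ⟨by linarith [ht.1], ht.2⟩ S S0 ?_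
      have := hS (y i - σ - t) ⟨by linarith [ht.2], by linarith [ht.1]⟩
      rwa [el, show σ - y i + t = -(y i - σ - t) by ring])
    0 ⟨le_rfl, by linarith⟩ (y i - σ) ⟨by linarith, le_rfl⟩ (by linarith)
  have c0 := abs_le.1 (h.cmp m e (mm _ l0 4 (by norm_num)) (mm _ l0 4 (by norm_num)))
  have c1 := abs_le.1 (h.cmp m e (mm _ l1 4 (by norm_num)) (mm _ l0 4 (by norm_num)))
  have c2 : wa μ ψ d y0 ≤ η := by
    refine le_trans ?_ (h.tr y0 (mm _ l0 2 le_rfl) (by rw [hy0, el, ln_co]; ring))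
    rw [wa_one]
    exact integral_mono_of_nonneg (.of_forall fun z => mul_nonneg (h.d0 _) (e z).1)
      (h.bd.cb.ig y0) (.of_forall fun z => mul_le_of_le_one_right (h.d0 _) (e z).2)
  have c3 : 0 ≤ wa μ ψ d (p + (0 : ℝ) • ev i) :=
    integral_nonneg fun z => mul_nonneg (h.d0 _) (e z).1
  have c4 : wa μ 1 (u o) y0 ≤ T := h.U_le.trans (hT _ (mm _ l0 2 le_rfl) (by linarith [(nm _ l0).2]))
  have c5 : ∑ α, wa μ (fun z => ψ z * b α (y0 + z)) (pd i (u α)) y ≤
      wa μ ψ (pd i (u o)) y + L * B := by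
    have B0 : 0 ≤ B := by
      simpa [wa] using hB o 0 ⟨⟨measurable_const, fun _ => by simpa using h.L0.le⟩, fun _ _ => le_rfl⟩
    rw [← Finset.add_sum_erase _ _ (Finset.mem_univ o)]
    simp only [h.bo, mul_one]
    refine add_le_add le_rfl ((Finset.sum_le_card_nsmul _ _ B fun α _ => hB α _ (w α)).trans ?_)
    rw [nsmul_eq_mul]
    exact mul_le_mul_of_nonneg_right (le_trans (by exact_mod_cast Finset.card_le_univ _) h.cd') B0
  rw [show p + (y i - σ) • ev i = y by rw [el]; simp] at t2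
  rw [← hy0, sub_self, norm_zero, zero_add] at c0
  rw [← hy0, norm_sub_rev, zero_smul, add_zero, hy0, ln_nm, abs_of_nonpos (by linarith),
    ← hy0] at c1
  simp only [← hy0, zero_smul, add_zero] at t1 t2 c3
  have P0 := h.U_nn (y := p)
  generalize ∑ α, wa μ (fun z => ψ z * b α (y0 + z)) (pd i (u α)) p = q1 at *
  have k1 : -(3 * L * P + 2) ≤ q1 := by
    refine le_of_mul_le_mul_left ?_ (show 0 < σ - ε by linarith)
    have a1 : L * (-(ε - σ) + 2 * ε) * wa μ 1 (u o) p ≤ L * (3 * (σ - ε)) * P :=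
      mul_le_mul (mul_le_mul_of_nonneg_left (by linarith) h.L0.le) hP P0
        (mul_nonneg h.L0.le (by linarith))
    have a2 : L * (2 * ε) * wa μ 1 (u o) y0 ≤ L * (2 * ε) * T := by gcongr
    have a3 : L ^ 3 * (T + 1) * (σ - ε) ≤ 1 := le_trans (by gcongr <;> linarith) s4
    nlinarith [mul_le_mul_of_nonneg_right a3 (show 0 ≤ σ - ε by linarith), c0.2, c1.1]
  linarith

/-- The step of the absorption. -/
theorem step (hT : ∀ y ∈ closedBall x (2 * R), 0 ≤ y i → Ff μ u y ≤ T) (s1 : 2 * ε ≤ σ)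
    (s2 : σ ≤ R) (s3 : ε * T ≤ 1) (s4 : L ^ 4 * (T + 1) * σ ≤ 1)
    (s5 : 2 * (η + 2 * ε * L * T) ≤ σ) (c0 : 0 ≤ c) (hc : ∀ ρ > 0, ∃ G, Ml ρ c G ∧
      tsupport G ⊆ closedBall (-(ρ • (3 / 2 : ℝ) • ev i)) (ρ / 2)) (h0 : σ ≤ y i) (r0 : 0 < r)
    (r1 : r ≤ 1) (sb : closedBall y (8 * r) ⊆ closedBall x R)
    (hS : ∀ z ∈ {z : E n | σ ≤ z i}, z ∈ closedBall y (8 * r) → Ff μ u z ≤ S) :
    Ff μ u y ≤ 40 * L ^ 4 * (c * L + 2) * (r⁻¹ ^ (2 * n + 1) + r * S) := by
  have := h.pm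
  have e0 := h.ε0
  have L1 := h.L1
  have L0 := h.L0
  have S0 : 0 ≤ S := Ff_nn.trans (hS y h0 (mem_closedBall_self (by positivity)))
  have X1 : 1 ≤ r⁻¹ ^ (2 * n + 1) := one_le_pow₀ (one_le_inv₀ r0 |>.2 r1)
  have Y0 : 0 ≤ r * S := by positivity
  obtain ⟨G, g, gs⟩ := hc (r ^ 2) (by positivity)
  have p2 : 2 ≤ c * L + 2 := le_add_of_nonneg_left (by positivity)
  have hP : ∀ z, ‖z - y‖ ≤ r → σ ≤ z i →
      wa μ 1 (u o) z ≤ r * ((c * L + 2) * (r⁻¹ ^ (2 * n + 1) + r * S)) := fun z hz z0 => by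
    refine (h.U_bd g (cvx y (8 * r) i σ) (fun w hw => hS w hw.2 hw.1)
      ⟨mem_closedBall_iff_norm.2 (by linarith), z0⟩ fun w hw => ⟨?_, ?_⟩).trans ?_
    · have := mem_closedBall_iff_norm.1 (g.mem hw)
      exact mem_closedBall_iff_norm.2 (by nlinarith [norm_sub_le_norm_sub_add_norm_sub w z y])
    · have := abs_le.1 ((co_le _ _ i).trans (mem_closedBall_iff_norm.1 (gs hw)))
      simp only [PiLp.sub_apply, PiLp.neg_apply, PiLp.smul_apply, smul_eq_mul,
        EuclideanSpace.single_apply, if_true] at this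
      exact show σ ≤ w i by nlinarith [this.2, sq_nonneg r]
    · have e : (r ^ 2)⁻¹ ^ n = r * r⁻¹ ^ (2 * n + 1) := by
        rw [← inv_pow, ← pow_mul, pow_succ' _ (2 * n), mul_inv_cancel_left₀ r0.ne']
      rw [e]
      nlinarith [mul_nonneg (mul_nonneg (mul_nonneg c0 L0.le) r0.le) Y0, mul_pos r0 (one_pos.trans_le X1)]
  generalize r⁻¹ ^ (2 * n + 1) = X at *
  generalize c * L + 2 = p at *
  have K1 : (S + 1) * r ≤ X + r * S := by nlinarith
  have Z1 : 1 ≤ X + r * S := by linarith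
  generalize X + r * S = Z at *
  have ty : ∀ k α ψ (τ : ℝ), Ad o α L ψ → |τ| = r → (∀ t ∈ uIcc 0 τ, σ ≤ (y + t • ev k) i) →
      τ * wa μ ψ (pd k (u α)) y ≤ r * (3 * L ^ 2 * p * Z) := fun k α ψ τ w e hs => by
    have nm : ∀ t ∈ uIcc 0 τ, ‖y + t • ev k - y‖ ≤ r := fun t ht => by
      rw [ln_nm, ← e]
      simpa using abs_sub_left_of_mem_uIcc ht
    have mb : ∀ t ∈ uIcc 0 τ, y + t • ev k ∈ closedBall y (8 * r) := fun t ht =>
      mem_closedBall_iff_norm.2 (by linarith [nm t ht])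
    refine (h.tay w.toBm (fun t ht => h.sec' hT s3 w (by
      linarith [mem_closedBall_iff_norm.1 (sb (mb t ht))]) (by linarith [hs t ht])
      (hS _ (hs t ht) (mb t ht))) (hP y (by simpa using r0.le) h0)
      (hP _ (nm τ right_mem_uIcc) (hs τ right_mem_uIcc))).trans ?_
    rw [← sq_abs τ, e]
    have a1 := mul_le_mul_of_nonneg_left K1 (show 0 ≤ L ^ 2 * r by positivity)
    have a2 := mul_le_mul_of_nonneg_left p2 (show 0 ≤ L ^ 2 * r * Z by positivity)
    nlinarith [show 0 ≤ L ^ 2 * r * Z by positivity]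
  have hB : ∀ k α ψ, Ad o α L ψ → wa μ ψ (pd k (u α)) y ≤ 3 * L ^ 2 * p * Z := fun k α ψ w =>
    le_of_mul_le_mul_left (ty k α ψ r w (abs_of_pos r0) fun t ht => by
      rw [uIcc_of_le r0.le] at ht
      by_cases e : k = i
      · rw [e, ln_co]
        linarith [ht.1]
      · rwa [ln_co' e]) r0
  have q0 : 0 ≤ p * Z := by positivity
  have q1 : 2 ≤ p * Z := by nlinarith
  have q2 : L ^ 2 * (p * Z) ≤ L ^ 3 * (p * Z) :=
    mul_le_mul_of_nonneg_right (pow_le_pow_right₀ L1 (by norm_num)) q0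
  have q3 : L * (p * Z) ≤ L ^ 2 * (p * Z) :=
    mul_le_mul_of_nonneg_right (le_self_pow₀ L1 (by norm_num)) q0
  have q4 : p * Z ≤ L * (p * Z) := le_mul_of_one_le_left q0 L1
  have rP : r * (p * Z) ≤ p * Z := mul_le_of_le_one_left q0 r1
  have hA : ∀ k α, ∫ z, |pd k (u α) (y + z)| ∂μ ≤ 2 * (8 * L ^ 3 * (p * Z)) := fun k α => by
    refine (h.b1 α k).cb.int_abs fun ψ m e => ?_
    have wb : Bm L ψ := ⟨m, fun z => abs_le.2 ⟨by linarith [(e z).1], (e z).2.trans L1⟩⟩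
    have w : Ad o α L ψ := ⟨wb, fun _ z => (e z).1⟩
    refine abs_le.2 ⟨neg_le.1 ?_, by linarith [hB k α ψ w]⟩
    by_cases a1 : α = o
    · by_cases a2 : k = i ∧ y i - σ < r
      · have nm : ∀ t ∈ Icc 0 (y i - σ), ‖y + (-t) • ev i - y‖ ≤ r ∧ σ ≤ (y + (-t) • ev i) i :=
          fun t ht => by
            rw [ln_nm, ln_co, abs_neg, abs_of_nonneg ht.1]
            exact ⟨by linarith [ht.2, a2.2], by linarith [ht.2]⟩
        have n1 := nm (y i - σ) ⟨by linarith, le_rfl⟩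
        rw [neg_sub] at n1
        have := h.nor hT s1 s3 s4 s5 m e (mem_closedBall_iff_norm.1 (sb (mem_closedBall_self
          (by positivity)))) h0 (fun t ht => hS _ (nm t ht).2 (mem_closedBall_iff_norm.2
            (by linarith [(nm t ht).1]))) ((hP _ n1.1 n1.2).trans rP) (hB i)
        have a3 : 2 * L ^ 3 * (S + 1) * (y i - σ) ≤ L ^ 3 * (p * Z) := by
          have a4 : (S + 1) * (y i - σ) ≤ Z :=
            (mul_le_mul_of_nonneg_left a2.2.le (by positivity)).trans K1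
          have a5 : 2 * Z ≤ p * Z := mul_le_mul_of_nonneg_right p2 (by positivity)
          nlinarith [mul_le_mul_of_nonneg_left (show 2 * ((S + 1) * (y i - σ)) ≤ p * Z by linarith)
            (show 0 ≤ L ^ 3 by positivity)]
        rw [a1, a2.1]
        linarith
      · have := ty k α ψ (-r) w (by rw [abs_neg, abs_of_pos r0]) fun t ht => by
          rw [uIcc_of_ge (by linarith)] at ht
          by_cases e : k = i
          · rw [e, ln_co]
            linarith [ht.1, not_lt.1 fun a => a2 ⟨e, a⟩]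
          · rwa [ln_co' e]
        rw [neg_mul, ← mul_neg] at this
        linarith [le_of_mul_le_mul_left this r0]
    · have := hB k α (-ψ) ⟨⟨m.neg, fun z => by simpa using wb.b z⟩, fun a => (a1 a).elim⟩
      rw [wa_neg] at this
      linarith
  have hV : ∀ α, ∫ z, |u α (y + z)| ∂μ ≤ 2 * (8 * L ^ 3 * (p * Z)) := fun α => by
    refine (h.b0 α).cb.int_abs fun ψ m e => ?_
    have := h.val (y := y) (⟨m, fun z => abs_le.2 ⟨by linarith [(e z).1], (e z).2⟩⟩ : Bm 1 ψ) α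
    have := mul_le_mul_of_nonneg_left ((hP y (by simpa using r0.le) h0).trans rP) L0.le
    linarith
  rw [h.F_eq]
  refine (Finset.sum_le_card_nsmul _ _ _ fun α _ => add_le_add (hV α)
    (Finset.sum_le_card_nsmul _ _ _ fun k _ => hA k α)).trans ?_
  simp only [nsmul_eq_mul, Finset.card_univ, Fintype.card_fin]
  have := mul_le_mul_of_nonneg_right h.cd (show 0 ≤ 2 * (8 * L ^ 3 * (p * Z)) by positivity)
  nlinarith [show 0 ≤ L ^ 4 * (p * Z) by positivity]

end Fn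

theorem bdm : BDM := fun n L R => by
  choose c c0 hc using fun i : Fin n => ex_ml ((3 / 2 : ℝ) • ev i) (by simp [norm_smul])
  by_cases hR : 0 < R ∧ 0 < L
  swap
  · exact ⟨0, fun ι _ i o x ε κ η μ u b a J d σ T h => (hR ⟨h.R0, h.L0⟩).elim⟩
  have p : ∀ i, 0 ≤ 40 * L ^ 4 * (c i * L + 2) := fun i => by
    have := c0 i
    have := hR.2
    positivity
  choose C C1 hC using fun i => absorb (n := n) (2 * n + 1) _ R (p i) hR.1
  refine ⟨∑ i, C i * (40 * L ^ 4 * (c i * L + 2)), ?_⟩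
  intro ι _ i o x ε κ η μ u b a J d σ T h hT s1 s2 s3 s4 s5 α y hy y' hy' y0 y0'
  have e0 := h.ε0
  refine h.lip (cvx x (R / 2) i σ) (fun z hz => ?_) ⟨hy, y0⟩ ⟨hy', y0'⟩ α
  refine (hC i (Ff μ u) {z | σ ≤ z i} x 0 T _ (p i) (fun _ => Ff_nn) (fun w k k' => hT w
    (closedBall_subset_closedBall (by linarith [hR.1]) k') (le_trans (by linarith) k))
    (by simpa using p i) (fun w k r r0 _ r1 sb S hS => ?_) z hz.2 hz.1).trans
    (Finset.single_le_sum (f := fun i => C i * (40 * L ^ 4 * (c i * L + 2)))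
      (fun j _ => mul_nonneg (zero_le_one.trans (C1 j)) (p j)) (Finset.mem_univ i))
  exact (h.step hT s1 s2 s3 s4 s5 (c0 i) (hc i) k r0 r1 sb hS).trans_eq (by ring)

end Vale.Agent.P366K2
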