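import Vale.Agent.P366K2.Est

/-!
P366K2: the estimate at the boundary; exact statements of the blocks.
-/

open MeasureTheory Metric Filter Topology Set
open scoped ContDiff NNReal
open Vale.Agent.P366.Stmt

noncomputable section

namespace Vale.Agent.P366K2

variable {n : ℕ} {ι : Type} [Fintype ι]

/-- Weighted averages over translations. -/
def wa (μ : Measure (E n)) (ψ g : E n → ℝ) (y : E n) : ℝ := ∫ z, g (y + z) * ψ z ∂μ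

/-- The size of the family u and its average. -/
def Qf (u : ι → E n → ℝ) (y : E n) : ℝ := ∑ α, (|u α y| + ∑ k, |pd k (u α) y|)
def Ff (μ : Measure (E n)) (u : ι → E n → ℝ) (y : E n) : ℝ := ∫ z, Qf u (y + z) ∂μ

/-- The regularised system near the point x of the boundary. -/
structure Fn (i : Fin n) (o : ι) (x : E n) (R L ε κ η : ℝ) (μ : Measure (E n))
    (u b : ι → E n → ℝ) (a J d : E n → ℝ) : Prop where
  x0 : x i = 0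
  R0 : 0 < R
  L1 : 1 ≤ L
  cd : (Fintype.card ι : ℝ) * (n + 1) ≤ L
  LR : 4 * L ^ 2 * R ≤ 1
  ε0 : 0 < ε
  κ0 : 0 ≤ κ
  pm : IsProbabilityMeasure μ
  sp : ∀ᵐ z ∂μ, ‖z‖ ≤ R ∧ z i ∈ Icc 0 ε
  le : μ ≤ ENNReal.ofReal (κ / ε) • volume
  b0 : ∀ α, B1 (u α)
  b1 : ∀ α k, B1 (pd k (u α))
  nn : ∀ y, 0 ≤ u o y
  dom : ∀ α y, |u α y| ≤ L * u o y
  iu : Integrable (u o)
  iu' : ∫ y, u o y ≤ L
  ba : B1 a
  a0 : ∀ y, 0 ≤ a y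
  av : ∀ y S, (∀ w ∈ closedBall y ε, wa μ 1 (u o) w ≤ S) → wa μ 1 a y ≤ L * S
  cJ : Continuous J
  J0 : ∀ y, 0 ≤ J y
  iJ : Integrable J
  iJ' : ∫ y, J y ≤ L
  lo : ∀ α k, ∀ y ∈ closedBall x (5 * R), 0 ≤ y i → -(L * Qf u y + a y) ≤ pd k (pd k (u α)) y
  up : ∀ α ≠ o, ∀ k, ∀ y ∈ closedBall x (5 * R), 0 ≤ y i → pd k (pd k (u α)) y ≤ L * Qf u y + a y
  mx : ∀ α k, ∀ y ∈ closedBall x (5 * R), 0 ≤ y i → |pd i (pd k (u α)) y| ≤ L * Qf u y + J y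
  top : ∀ y ∈ closedBall x (5 * R), 2 * R ≤ y i → Qf u y ≤ κ
  mb : ∀ α, Measurable (b α)
  bb : ∀ α y, |b α y| ≤ L
  bo : ∀ y, b o y = 1
  bd : B1 d
  d0 : ∀ y, 0 ≤ d y
  dd : ∀ y ∈ closedBall x (5 * R), ∀ y' ∈ closedBall x (5 * R),
    |∑ α, b α y' * u α y - d y| ≤ L * (‖y - y'‖ + 2 * ε) * u o y
  tr : ∀ y ∈ closedBall x (2 * R), y i = ε → wa μ 1 d y ≤ η

/-- The bound along the normal lines. -/
def APR : Prop := ∀ (n : ℕ) (ι : Type) [Fintype ι] (i : Fin n) (o : ι) x R L ε κ η μ u b a J d,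
  Fn i o x R L ε κ η μ u b a J d → ∀ y ∈ closedBall x (2 * R), 0 ≤ y i →
    Ff μ u y ≤ 2 * κ * (1 + L ^ 2)

/-- The uniform bound. -/
def BDM : Prop := ∀ (n : ℕ) (L R : ℝ), ∃ C : ℝ, ∀ (ι : Type) [Fintype ι] (i : Fin n) (o : ι)
  x ε κ η μ u b a J d (σ T : ℝ), Fn i o x R L ε κ η μ u b a J d →
  (∀ y ∈ closedBall x (2 * R), 0 ≤ y i → Ff μ u y ≤ T) → 2 * ε ≤ σ → σ ≤ R → ε * T ≤ 1 →
  L ^ 4 * (T + 1) * σ ≤ 1 → 2 * (η + 2 * ε * L * T) ≤ σ → ∀ α, ∀ y ∈ closedBall x (R / 2),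
  ∀ y' ∈ closedBall x (R / 2), σ ≤ y i → σ ≤ y' i →
    |wa μ 1 (u α) y - wa μ 1 (u α) y'| ≤ C * ‖y - y'‖

end Vale.Agent.P366K2
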