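import Vale.Agent.P366K2.Bd

/-!
P366K2: averages over translations, and the elementary estimates near the boundary.
-/

open MeasureTheory Metric Filter Topology Set
open scoped ContDiff NNReal
open Vale.Agent.P366.Stmt

noncomputable section

set_option linter.unusedSectionVars false

namespace Vale.Agent.P366K2

variable {n : ℕ} {ι : Type} [Fintype ι] {μ : Measure (E n)} {ψ g : E n → ℝ} {x y y' : E n}
  {c R L ε κ η S T P K B τ : ℝ} {i k : Fin n} {o α : ι} {u b : ι → E n → ℝ} {a J d : E n → ℝ}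

theorem wa_eq : wa μ ψ g = ml μ (fun z => -z) ψ g := by
  funext y
  simp [wa, ml, pr]

theorem wa_one : wa μ 1 g y = ∫ z, g (y + z) ∂μ := by simp [wa]

theorem wa_neg : wa μ (-ψ) g y = -wa μ ψ g y := by simp [wa, integral_neg]

/-- Bounded measurable weights. -/
structure Bm (c : ℝ) (ψ : E n → ℝ) : Prop where
  m : Measurable ψ
  b : ∀ z, |ψ z| ≤ c

theorem bm_one : Bm 1 (1 : E n → ℝ) := ⟨measurable_const, fun _ => by simp⟩

/-- Bounded continuous functions. -/
structure Cb (g : E n → ℝ) : Prop where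
  c : Continuous g
  b : ∃ C, ∀ y, |g y| ≤ C

theorem B1.cb (h : B1 g) : Cb g := ⟨h.cd.continuous, h.bd.imp fun _ k y => (k y).1⟩

theorem B1.cb' (h : B1 g) (k : Fin n) : Cb (pd k g) :=
  ⟨(pd_cd (m := 0) (by simpa using h.cd) k).continuous,
    h.bd.imp fun _ e y => (pd_le (h.dif y) k).trans (e y).2⟩

section

variable [IsProbabilityMeasure μ]

theorem Cb.ig (h : Cb g) (y : E n) : Integrable (fun z => g (y + z)) μ :=
  let ⟨C, e⟩ := h.b
  .of_bound (h.c.comp (by fun_prop)).aestronglyMeasurable C (.of_forall fun _ => e _)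

theorem Cb.igw (h : Cb g) (w : Bm c ψ) (y : E n) : Integrable (fun z => g (y + z) * ψ z) μ :=
  (h.ig y).mul_bdd w.m.aestronglyMeasurable (.of_forall w.b)

theorem Bm.b1 (w : Bm c ψ) (h : B1 g) :
    B1 (wa μ ψ g) ∧ ∀ k, pd k (wa μ ψ g) = wa μ ψ (pd k g) := by
  simp only [wa_eq]
  exact Tr.ml_b1 ⟨inferInstance, measurable_neg,
    .of_bound w.m.aestronglyMeasurable c (.of_forall w.b)⟩ h

theorem Bm.line (w : Bm c ψ) (h : B1 g) (k : Fin n) (y : E n) (t : ℝ) :
    HasDerivAt (fun t : ℝ => wa μ ψ g (y + t • ev k)) (wa μ ψ (pd k g) (y + t • ev k)) t :=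
  (w.b1 (μ := μ) h).2 k ▸ pd_line (w.b1 h).1.dif k y t

theorem Cb.int_abs (h : Cb g)
    (e : ∀ ψ, Measurable ψ → (∀ z, ψ z ∈ Icc (0 : ℝ) 1) → |wa μ ψ g y| ≤ B) :
    ∫ z, |g (y + z)| ∂μ ≤ 2 * B := by
  have m : MeasurableSet {z | 0 ≤ g (y + z)} :=
    measurableSet_le measurable_const (h.c.comp (by fun_prop)).measurable
  have a : ∀ s : Set (E n), ∀ z, indicator s (1 : E n → ℝ) z ∈ Icc (0 : ℝ) 1 := fun s z => by
    by_cases k : z ∈ s <;> simp [k]
  have w : ∀ s : Set (E n), MeasurableSet s → Bm 1 (indicator s (1 : E n → ℝ)) := fun s k =>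
    ⟨measurable_one.indicator k, fun z => abs_le.2 ⟨by linarith [(a s z).1], (a s z).2⟩⟩
  have e1 := abs_le.1 (e _ (w _ m).m (a _))
  have e2 := abs_le.1 (e _ (w _ m.compl).m (a _))
  have : ∫ z, |g (y + z)| ∂μ = wa μ (indicator {z | 0 ≤ g (y + z)} 1) g y -
      wa μ (indicator {z | 0 ≤ g (y + z)}ᶜ 1) g y := by
    rw [wa, wa, ← integral_sub (h.igw (w _ m) y) (h.igw (w _ m.compl) y)]
    refine integral_congr_ae (.of_forall fun z => ?_)
    by_cases k : 0 ≤ g (y + z)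
    · simp [k, abs_of_nonneg k]
    · simp [k, abs_of_neg (not_le.1 k)]
  linarith [e1.2, e2.1]

end

theorem Qf_nn : 0 ≤ Qf u y := Finset.sum_nonneg fun _ _ => by positivity

theorem le_Qf (α : ι) : |u α y| + ∑ k, |pd k (u α) y| ≤ Qf u y :=
  Finset.single_le_sum (f := fun α => |u α y| + ∑ k, |pd k (u α) y|)
    (fun _ _ => by positivity) (Finset.mem_univ α)

theorem Ff_nn : 0 ≤ Ff μ u y := integral_nonneg fun _ => Qf_nn

/-- Admissible weights. -/
structure Ad (o α : ι) (L : ℝ) (ψ : E n → ℝ) : Prop extends Bm L ψ where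
  p : α = o → ∀ z, 0 ≤ ψ z

theorem cvx (x : E n) (r : ℝ) (i : Fin n) (σ : ℝ) : Convex ℝ (closedBall x r ∩ {y | σ ≤ y i}) :=
  (convex_closedBall x r).inter
    (convex_halfSpace_ge (EuclideanSpace.proj (𝕜 := ℝ) i).toLinearMap.isLinear σ)

theorem co_le (y y' : E n) (i : Fin n) : |y i - y' i| ≤ ‖y - y'‖ := PiLp.norm_apply_le (y - y') i

namespace Fn

variable (h : Fn i o x R L ε κ η μ u b a J d)
include h

theorem L0 : 0 < L := one_pos.trans_le h.L1

theorem cd' : (Fintype.card ι : ℝ) ≤ L := le_trans (le_mul_of_one_le_right (by positivity)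
  (le_add_of_nonneg_left (by positivity))) h.cd

theorem i0 (α : ι) (y : E n) : Integrable (fun z => |u α (y + z)|) μ :=
  have := h.pm
  ((h.b0 α).cb.ig y).abs

theorem i1 (α : ι) (y : E n) (k : Fin n) : Integrable (fun z => |pd k (u α) (y + z)|) μ :=
  have := h.pm
  ((h.b1 α k).cb.ig y).abs

theorem i2 (α : ι) (y : E n) : Integrable (fun z => ∑ k, |pd k (u α) (y + z)|) μ :=
  integrable_finsetSum _ fun k _ => h.i1 α y k

theorem iQ (y : E n) : Integrable (fun z => Qf u (y + z)) μ :=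
  integrable_finsetSum _ fun α _ => (h.i0 α y).add (h.i2 α y)

theorem F_eq (y : E n) : Ff μ u y =
    ∑ α, (∫ z, |u α (y + z)| ∂μ + ∑ k, ∫ z, |pd k (u α) (y + z)| ∂μ) := by
  simp only [Ff, Qf]
  refine (integral_finsetSum _ fun α _ => (h.i0 α y).add (h.i2 α y)).trans
    (Finset.sum_congr rfl fun α _ => ?_)
  simp only [Pi.add_apply]
  rw [integral_add (h.i0 α y) (h.i2 α y), integral_finsetSum _ fun k _ => h.i1 α y k]

theorem U_nn : 0 ≤ wa μ 1 (u o) y := integral_nonneg fun _ => mul_nonneg (h.nn _) zero_le_one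

theorem U_le : wa μ 1 (u o) y ≤ Ff μ u y := by
  have := h.pm
  rw [wa_one]
  exact integral_mono ((h.b0 o).cb.ig y) (h.iQ y) fun z => (le_abs_self _).trans
    ((le_add_of_nonneg_right (by positivity)).trans (le_Qf o))

theorem lip {A : Set (E n)} (hA : Convex ℝ A) (e : ∀ z ∈ A, Ff μ u z ≤ S) (hy : y ∈ A)
    (hy' : y' ∈ A) (α : ι) : |wa μ 1 (u α) y - wa μ 1 (u α) y'| ≤ S * ‖y - y'‖ := by
  have := h.pm
  have k := bm_one.b1 (μ := μ) (h.b0 α)
  refine hA.norm_image_sub_le_of_norm_fderiv_le (fun z _ => k.1.dif z) (fun z hz => ?_) hy' hy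
  refine ((fd_le (k.1.dif z)).trans ?_).trans (e z hz)
  simp only [k.2, wa_one]
  refine (Finset.sum_le_sum fun j _ => abs_integral_le_integral_abs).trans ?_
  rw [← integral_finsetSum _ fun j _ => h.i1 α z j]
  exact integral_mono (h.i2 α z) (h.iQ z) fun w =>
    (le_add_of_nonneg_left (abs_nonneg _)).trans (le_Qf α)

theorem val (w : Bm c ψ) (α : ι) : |wa μ ψ (u α) y| ≤ c * L * wa μ 1 (u o) y := by
  have := h.pm
  rw [wa_one, ← integral_const_mul, wa, ← Real.norm_eq_abs]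
  refine norm_integral_le_of_norm_le (((h.b0 o).cb.ig y).const_mul _) (.of_forall fun z => ?_)
  rw [Real.norm_eq_abs, abs_mul, mul_comm, mul_assoc]
  exact mul_le_mul (w.b z) (h.dom α _) (abs_nonneg _) ((abs_nonneg _).trans (w.b z))

theorem mem (hy : y ∈ closedBall x (4 * R)) : ∀ᵐ z ∂μ, y + z ∈ closedBall x (5 * R) ∧
    y i ≤ (y + z) i := h.sp.mono fun z hz => ⟨by
  rw [mem_closedBall_iff_norm] at *
  rw [add_sub_right_comm]
  linarith [norm_add_le (y - x) z, hz.1], by simpa using hz.2.1⟩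

theorem sec (w : Ad o α L ψ) (hy : y ∈ closedBall x (4 * R)) (h0 : 0 ≤ y i) :
    -(L * (L * Ff μ u y + wa μ 1 a y)) ≤ wa μ ψ (pd k (pd k (u α))) y := by
  have := h.pm
  have i3 := ((h.iQ y).const_mul L).add (h.ba.cb.ig y)
  rw [wa_one, Ff, ← integral_const_mul, ← integral_add ((h.iQ y).const_mul L) (h.ba.cb.ig y),
    ← integral_const_mul, ← integral_neg]
  refine integral_mono_ae (i3.const_mul L).neg (((h.b1 α k).cb' k).igw w.toBm y)
    ((h.mem hy).mono fun z hz => ?_)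
  have e := h.lo α k _ hz.1 (h0.trans hz.2)
  have p : 0 ≤ L * Qf u (y + z) + a (y + z) := add_nonneg (mul_nonneg h.L0.le Qf_nn) (h.a0 _)
  have q := abs_le.1 (w.b z)
  by_cases k' : α = o
  · nlinarith [w.p k' z]
  · have := h.up α k' k _ hz.1 (h0.trans hz.2)
    rcases le_total 0 (ψ z) with s | s <;> nlinarith

theorem sec' (hT : ∀ y ∈ closedBall x (2 * R), 0 ≤ y i → Ff μ u y ≤ T) (e : ε * T ≤ 1)
    (w : Ad o α L ψ) (hy : ‖y - x‖ + ε ≤ 2 * R) (h0 : ε ≤ y i) (hS : Ff μ u y ≤ S) :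
    -(2 * L ^ 2 * (S + 1)) ≤ wa μ ψ (pd k (pd k (u α))) y := by
  have e0 := h.ε0
  have L0 := h.L0
  have m : ∀ w ∈ closedBall y ε, w ∈ closedBall x (2 * R) ∩ {z | 0 ≤ z i} := fun w hw => by
    rw [mem_closedBall_iff_norm] at hw
    refine ⟨mem_closedBall_iff_norm.2 ?_, ?_⟩
    · linarith [norm_sub_le_norm_sub_add_norm_sub w y x]
    · have := abs_le.1 ((co_le w y i).trans hw)
      exact show 0 ≤ w i by linarith
  have m0 := m y (mem_closedBall_self e0.le)
  have k1 := h.av y (S + 1) fun w hw => by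
    have := abs_le.1 (h.lip (cvx x _ i 0) (fun z hz => hT z hz.1 hz.2) (m w hw) m0 o)
    have := mul_le_mul_of_nonneg_left (mem_closedBall_iff_norm.1 hw) (Ff_nn.trans (hT y m0.1 m0.2))
    linarith [h.U_le (y := y)]
  refine le_trans ?_ (h.sec w (closedBall_subset_closedBall (by linarith [h.R0]) m0.1) m0.2)
  have := mul_le_mul_of_nonneg_left (add_le_add (mul_le_mul_of_nonneg_left hS L0.le) k1) L0.le
  nlinarith [sq_nonneg L]

theorem tay (w : Bm L ψ) (hK : ∀ t ∈ uIcc 0 τ, -K ≤ wa μ ψ (pd k (pd k (u α))) (y + t • ev k))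
    (p0 : wa μ 1 (u o) y ≤ P) (p1 : wa μ 1 (u o) (y + τ • ev k) ≤ P) :
    τ * wa μ ψ (pd k (u α)) y ≤ 2 * L ^ 2 * P + K * τ ^ 2 / 2 := by
  have := h.pm
  have t := taylor (w.line (μ := μ) (h.b0 α) k y) (w.line (h.b1 α k) k y) hK
  simp only [zero_smul, add_zero] at t
  have a0 := abs_le.1 ((h.val w α).trans (mul_le_mul_of_nonneg_left p0 (mul_self_nonneg L)))
  have a1 := abs_le.1 ((h.val w α).trans (mul_le_mul_of_nonneg_left p1 (mul_self_nonneg L)))
  nlinarith [a0.1, a1.2]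

/-- The mean of the leading component is controlled by the mass. -/
theorem U_bd {G : E n → ℝ} {ρ : ℝ} (g : Ml ρ c G) {A : Set (E n)} (hA : Convex ℝ A)
    (e : ∀ z ∈ A, Ff μ u z ≤ S) (hy : y ∈ A) (sp : ∀ z, y - z ∈ tsupport G → z ∈ A) :
    wa μ 1 (u o) y ≤ c * ρ⁻¹ ^ n * L + S * (2 * ρ) := by
  have := h.pm
  have k := (bm_one.b1 (μ := μ) (h.b0 o)).1.cb
  have c0 : 0 ≤ c * ρ⁻¹ ^ n := (g.nn 0).trans (g.le 0)
  have a1 := abs_le.1 (g.avg isOpen_univ k.c.continuousOn (x := y) (a := wa μ 1 (u o) y)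
    (d := S * (2 * ρ)) fun z hz => ⟨mem_univ _, (h.lip hA e (sp z hz) hy o).trans
      (mul_le_mul_of_nonneg_left (mem_closedBall_iff_norm.1 (g.mem hz)) (Ff_nn.trans (e y hy)))⟩)
  obtain ⟨C, hC⟩ := (h.b0 o).cb.b
  have t : Tr μ (fun z => -z) (1 : E n → ℝ) := ⟨inferInstance, measurable_neg, integrable_const 1⟩
  have iG := (g.sm.continuous.integrable_of_hasCompactSupport (μ := volume) g.tst.cpt).comp_sub_left y
  have a2 : ∫ z, wa μ 1 (u o) z * G (y - z) ≤ c * ρ⁻¹ ^ n * L := by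
    rw [wa_eq, t.fub (h.b0 o).cb.c hC iG]
    refine (le_abs_self _).trans ((t.pr_le (c := c * ρ⁻¹ ^ n * L) fun z => ?_).trans (by simp))
    have i := h.iu.comp_sub_right z
    rw [abs_of_nonneg (integral_nonneg fun _ => mul_nonneg (h.nn _) (g.nn _))]
    refine (integral_mono_of_nonneg (.of_forall fun _ => mul_nonneg (h.nn _) (g.nn _))
      (i.const_mul (c * ρ⁻¹ ^ n)) (.of_forall fun w => ?_)).trans ?_
    · exact (mul_le_mul_of_nonneg_left (g.le _) (h.nn _)).trans_eq (mul_comm _ _)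
    · rw [integral_const_mul, integral_sub_right_eq_self (u o) z]
      exact mul_le_mul_of_nonneg_left h.iu' c0
  linarith [a1.1]

end Fn

end Vale.Agent.P366K2
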