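import Vale.Agent.P366K2.Bd

/-!
P366K2: the normalised volume of a thin box.
-/

open MeasureTheory Metric Filter Topology Set
open Vale.Agent.P366.Stmt

noncomputable section

namespace Vale.Agent.P366K2

theorem ex_mu {n : ℕ} (i : Fin n) {δ : ℝ} (h : 0 < δ) : ∃ κ0 > 0, ∀ ε > 0, ε ≤ δ → ∀ κ ≥ κ0,
    ∃ μ : Measure (E n), IsProbabilityMeasure μ ∧ (∀ᵐ z ∂μ, ‖z‖ ≤ n * δ ∧ z i ∈ Icc 0 ε) ∧
      μ ≤ ENNReal.ofReal (κ / ε) • volume := by
  classical
  have p0 : 0 < ∏ _j ∈ Finset.univ \ {i}, δ := Finset.prod_pos fun _ _ => h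
  refine ⟨_, inv_pos.2 p0, fun ε e e1 κ hκ => ?_⟩
  let b : Fin n → ℝ := Function.update (fun _ => δ) i ε
  let P : Set (E n) := WithLp.ofLp ⁻¹' Icc 0 b
  have b0 : ∀ j, 0 ≤ b j ∧ b j ≤ δ := fun j => by
    by_cases k : j = i
    · simp [b, k, e.le, e1]
    · simp [b, k, h.le]
  have m : MeasurableSet P := measurableSet_Icc.preimage (by fun_prop)
  have v : volume P = ENNReal.ofReal (ε * ∏ _j ∈ Finset.univ \ {i}, δ) := by
    rw [(PiLp.volume_preserving_ofLp (Fin n)).measure_preimage measurableSet_Icc.nullMeasurableSet,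
      Real.volume_Icc_pi, ← ENNReal.ofReal_prod_of_nonneg fun j _ => by simpa using (b0 j).1]
    simp only [Pi.zero_apply, sub_zero, b]
    rw [Finset.prod_update_of_mem (Finset.mem_univ i)]
  have v0 : volume P ≠ 0 := by
    rw [v]
    exact (ENNReal.ofReal_pos.2 (mul_pos e p0)).ne'
  have v1 : volume P ≠ ⊤ := v ▸ ENNReal.ofReal_ne_top
  refine ⟨(volume P)⁻¹ • volume.restrict P, ⟨?_⟩, ?_, ?_⟩
  · rw [Measure.smul_apply, Measure.restrict_apply_univ, smul_eq_mul, ENNReal.inv_mul_cancel v0 v1]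
  · refine Measure.ae_smul_measure ((ae_restrict_mem m).mono fun z hz => ⟨?_, hz.1 i, ?_⟩) _
    · rw [← sum_ev z]
      refine (norm_sum_le _ _).trans ((Finset.sum_le_card_nsmul _ _ δ fun k _ => ?_).trans_eq
        (by simp))
      rw [norm_smul, norm_ev, mul_one, Real.norm_of_nonneg (hz.1 k)]
      exact (hz.2 k).trans (b0 k).2
    · simpa [b] using hz.2 i
  · refine Measure.le_iff'.2 fun s => ?_
    simp only [Measure.smul_apply, smul_eq_mul]
    refine mul_le_mul' ?_ (Measure.restrict_le_self s)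
    rw [v, ← ENNReal.ofReal_inv_of_pos (mul_pos e p0)]
    refine ENNReal.ofReal_le_ofReal ?_
    rw [mul_inv, mul_comm, div_eq_mul_inv]
    exact mul_le_mul_of_nonneg_right hκ (inv_pos.2 e).le

end Vale.Agent.P366K2
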