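import Vale.Agent.P366K2.Mol

/-!
P366K2: the regularised system, and the absorption of small terms.
-/

open MeasureTheory Metric Filter Topology Set
open scoped ContDiff NNReal
open Vale.Agent.P366.Stmt

noncomputable section

set_option linter.unusedSectionVars false

namespace Vale.Agent.P366K2

variable {n : ℕ} {ι W : Type} [Fintype ι] [MeasurableSpace W] {G G' φ : E n → ℝ} {x y : E n}
  {c ε r L S : ℝ} {U V K : Set (E n)} {s : Sy n ι W}

/-- The absorption lemma. -/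
theorem absorb (m : ℕ) (C R : ℝ) (hC : 0 ≤ C) (hR : 0 < R) : ∃ C' ≥ 1, ∀ (Q : E n → ℝ) (H : Set (E n))
    (x0 : E n) (ε T C0 : ℝ), 0 ≤ C0 → (∀ y, 0 ≤ Q y) → (∀ y ∈ H, y ∈ closedBall x0 R → Q y ≤ T) →
    ε ^ m * T ≤ C0 → (∀ x ∈ H, ∀ r > 0, ε ≤ r → r ≤ 1 → closedBall x (8 * r) ⊆ closedBall x0 R →
      ∀ S, (∀ y ∈ H, y ∈ closedBall x (8 * r) → Q y ≤ S) → Q x ≤ C0 * r⁻¹ ^ m + C * r * S) →
    ∀ x ∈ H, x ∈ closedBall x0 (R / 2) → Q x ≤ C' * C0 := by
  obtain ⟨t, t0, t1, t2, t3⟩ : ∃ t > 0, t ≤ 1 / 16 ∧ t * R ≤ 1 ∧ C * (t * R) * 2 ^ m ≤ 1 / 2 := by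
    have a : ∀ k b : ℝ, 0 < b → ∀ᶠ t in 𝓝[>] (0 : ℝ), k * t ≤ b := fun k b hb =>
      ((show ContinuousAt (fun t : ℝ => k * t) 0 by fun_prop).eventually_le_const
        (by simpa using hb)).filter_mono nhdsWithin_le_nhds
    obtain ⟨t, ⟨⟨h1, h2⟩, h3⟩, h4⟩ := ((((a 1 _ (by norm_num : (0 : ℝ) < 1 / 16)).and (a R 1 one_pos)).and
      (a (C * R * 2 ^ m) _ one_half_pos)).and self_mem_nhdsWithin).exists
    exact ⟨t, h4, by linarith, by linarith, by linarith⟩
  refine ⟨2 * t⁻¹ ^ m * (R / 2)⁻¹ ^ m + 1, le_add_of_nonneg_left (by positivity),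
    fun Q H x0 ε T C0 c0 q0 hT hε st x hx hx' => ?_⟩
  let A := (fun y => (R - dist y x0) ^ m * Q y) '' (H ∩ ball x0 R)
  have xm : x ∈ H ∩ ball x0 R := ⟨hx, closedBall_subset_ball (by linarith) hx'⟩
  have bd : BddAbove A := ⟨R ^ m * T, forall_mem_image.2 fun y hy => mul_le_mul
    (pow_le_pow_left₀ (sub_pos.2 hy.2).le (sub_le_self _ dist_nonneg) m)
    (hT y hy.1 (ball_subset_closedBall hy.2)) (q0 y) (by positivity)⟩
  have le : ∀ y ∈ H ∩ ball x0 R, (R - dist y x0) ^ m * Q y ≤ sSup A := fun y hy =>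
    le_csSup bd (mem_image_of_mem _ hy)
  have w0 : 0 ≤ sSup A := (mul_nonneg (pow_nonneg (sub_pos.2 xm.2).le m) (q0 x)).trans (le x xm)
  have key : sSup A ≤ C0 * t⁻¹ ^ m + sSup A / 2 :=
    csSup_le ⟨_, mem_image_of_mem _ xm⟩ (forall_mem_image.2 fun y hy => by
      have d0 : 0 < R - dist y x0 := sub_pos.2 hy.2
      have d1 : R - dist y x0 ≤ R := sub_le_self _ dist_nonneg
      generalize hd : R - dist y x0 = d at *
      have e : d ^ m = t⁻¹ ^ m * (t * d) ^ m := by rw [← mul_pow, inv_mul_cancel_left₀ t0.ne']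
      rcases lt_or_ge (t * d) ε with k | k
      · have := mul_le_mul (pow_le_pow_left₀ (by positivity) k.le m)
          (hT y hy.1 (ball_subset_closedBall hy.2)) (q0 y) (pow_nonneg (by nlinarith) m)
        have := mul_le_mul_of_nonneg_left (this.trans hε) (show 0 ≤ t⁻¹ ^ m by positivity)
        rw [e]
        linarith
      have a : ∀ z ∈ closedBall y (8 * (t * d)), d / 2 ≤ R - dist z x0 := fun z hz => by
        have := dist_triangle z y x0
        rw [mem_closedBall] at hz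
        nlinarith
      have b := st y hy.1 (t * d) (by positivity) k (by nlinarith)
        (fun z hz => mem_closedBall.2 (by linarith [a z hz])) ((d / 2)⁻¹ ^ m * sSup A) fun z hz hz' => by
          rw [inv_pow, le_inv_mul_iff₀ (by positivity)]
          exact (mul_le_mul_of_nonneg_right (pow_le_pow_left₀ (by positivity) (a z hz') m)
            (q0 z)).trans (le z ⟨hz, mem_ball.2 (by linarith [a z hz'])⟩)
      refine (mul_le_mul_of_nonneg_left b (by positivity)).trans ?_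
      have e1 : d ^ m * (t * d)⁻¹ ^ m = t⁻¹ ^ m := by rw [← mul_pow]; congr 1; field_simp
      have e2 : d ^ m * (d / 2)⁻¹ ^ m = 2 ^ m := by rw [← mul_pow]; congr 1; field_simp
      have e3 : C * (t * d) * 2 ^ m ≤ 1 / 2 := le_trans (by gcongr) t3
      calc _ = C0 * (d ^ m * (t * d)⁻¹ ^ m) + C * (t * d) * (d ^ m * (d / 2)⁻¹ ^ m) * sSup A := by ring
        _ ≤ _ := by rw [e1, e2]; nlinarith)
  have k1 : (R / 2) ^ m * Q x ≤ 2 * (C0 * t⁻¹ ^ m) := (mul_le_mul_of_nonneg_right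
    (pow_le_pow_left₀ (by positivity) (by linarith [mem_closedBall.1 hx']) m) (q0 x)).trans
      ((le x xm).trans (by linarith))
  rw [← le_inv_mul_iff₀ (by positivity), ← inv_pow] at k1
  linarith

namespace Sy

variable (s) in
/-- The regularisation, its size, and the local mean of the leading component. -/
def u (α : ι) (G : E n → ℝ) : E n → ℝ := ml s.m s.π (s.θ α) G
variable (s) in
def Q (G : E n → ℝ) (x : E n) : ℝ := ∑ α, (|s.u α G x| + ∑ k, |s.u α (pd k G) x|)
variable (s) in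
def av (ε : ℝ) (G : E n → ℝ) (x : E n) : ℝ := ε⁻¹ ^ n * ∫ y in closedBall x ε, s.u s.o G y
variable (s) in
def ms : ℝ := ∫ w, |s.θ s.o w| ∂s.m

theorem ms_nn : 0 ≤ s.ms := integral_nonneg fun _ => abs_nonneg _

theorem Q_nn : 0 ≤ s.Q G x := Finset.sum_nonneg fun _ _ => by positivity

theorem le_Q (α : ι) : |s.u α G x| + ∑ k, |s.u α (pd k G) x| ≤ s.Q G x :=
  Finset.single_le_sum (f := fun α => |s.u α G x| + ∑ k, |s.u α (pd k G) x|)
    (fun _ _ => by positivity) (Finset.mem_univ α)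

theorem le_Q0 (α : ι) : |s.u α G x| ≤ s.Q G x :=
  (le_add_of_nonneg_right (by positivity)).trans (le_Q α)

theorem le_Q1 (α : ι) : ∑ k, |s.u α (pd k G) x| ≤ s.Q G x :=
  (le_add_of_nonneg_left (abs_nonneg _)).trans (le_Q α)

theorem Ok.tr (h : s.Ok U) (α : ι) : Tr s.m s.π (s.θ α) := ⟨h.sf, h.mπ, h.int α⟩

theorem Ok.b1 (h : s.Ok U) (g : B1 G) (α : ι) : B1 (s.u α G) := ((h.tr α).ml_b1 g).1
theorem Ok.pd_u (h : s.Ok U) (g : B1 G) (α : ι) (k : Fin n) : pd k (s.u α G) = s.u α (pd k G) :=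
  ((h.tr α).ml_b1 g).2 k

theorem Ok.fd_le (h : s.Ok U) (g : B1 G) (α : ι) : ‖fderiv ℝ (s.u α G) x‖ ≤ s.Q G x :=
  (P366K2.fd_le ((h.b1 g α).dif x)).trans (by simpa only [h.pd_u g] using le_Q1 α)

theorem Ok.lip (h : s.Ok U) (g : B1 G) (α : ι) (hK : Convex ℝ K) (b : ∀ z ∈ K, s.Q G z ≤ S)
    (hx : x ∈ K) (hy : y ∈ K) : |s.u α G y - s.u α G x| ≤ S * ‖y - x‖ :=
  hK.norm_image_sub_le_of_norm_fderiv_le (fun z _ => (h.b1 g α).dif z)
    (fun z hz => (h.fd_le g α).trans (b z hz)) hx hy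

theorem Ok.u_nn (h : s.Ok U) (g : ∀ y, 0 ≤ G y) : 0 ≤ s.u s.o G x :=
  integral_nonneg fun w => mul_nonneg (g _) (h.nn w)

theorem Ok.av_nn (h : s.Ok U) (e : 0 < ε) (g : ∀ y, 0 ≤ G y) : 0 ≤ s.av ε G x :=
  mul_nonneg (by positivity) (integral_nonneg fun _ => h.u_nn g)

variable (s) in
/-- Bounds for the coefficients. -/
structure Cf (K : Set (E n)) (L : ℝ) : Prop where
  one : 1 ≤ L
  dom : ∀ α w, |s.θ α w| ≤ L * s.θ s.o w
  bA : ∀ α a b β k, ∀ y ∈ K, |s.A α a b β k y| ≤ L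
  lA : ∀ α a b β k, ∀ y ∈ K, ∀ z ∈ K, |s.A α a b β k y - s.A α a b β k z| ≤ L * ‖y - z‖
  bB : ∀ α a b β, ∀ y ∈ K, |s.B α a b β y| ≤ L

theorem ev_bd {A : E n → ℝ} (h : ContDiffOn ℝ ∞ A U) (hK : IsCompact K) (hc : Convex ℝ K)
    (e : K ⊆ U) : ∀ᶠ L in atTop, (∀ y ∈ K, |A y| ≤ L) ∧
      ∀ y ∈ K, ∀ z ∈ K, |A y - A z| ≤ L * ‖y - z‖ := by
  obtain ⟨a, ha⟩ := hK.exists_bound_of_continuousOn (h.mono e).continuousOn
  obtain ⟨b, hb⟩ := (h.mono e).exists_lipschitzOnWith (by simp) hc hK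
  filter_upwards [eventually_ge_atTop a, eventually_ge_atTop (b : ℝ)] with L h1 h2
  exact ⟨fun y hy => (ha y hy).trans h1, fun y hy z hz => (hb.norm_sub_le hy hz).trans
    (mul_le_mul_of_nonneg_right h2 (norm_nonneg _))⟩

theorem Ok.ev_cf (h : s.Ok U) (hK : IsCompact K) (hc : Convex ℝ K) (e : K ⊆ U) :
    ∀ᶠ L in atTop, s.Cf K L := by
  obtain ⟨C, hC⟩ := h.dom
  have a := fun α a b β k => ev_bd (h.sA α a b β k) hK hc e
  have b := fun α a b β => ev_bd (h.sB α a b β) hK hc e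
  simp only [← eventually_all] at a b
  filter_upwards [eventually_ge_atTop 1, eventually_ge_atTop C, a, b] with L h1 h2 h3 h4
  exact ⟨h1, fun α w => (hC α w).trans (mul_le_mul_of_nonneg_right h2 (h.nn w)),
    fun α a b β k => (h3 α a b β k).1, fun α a b β k => (h3 α a b β k).2,
    fun α a b β => (h4 α a b β).1⟩

theorem Ok.u_dom (h : s.Ok U) (f : s.Cf K L) (g : Ml ε c G) (α : ι) :
    |s.u α G x| ≤ L * s.u s.o G x :=
  let ⟨_, b⟩ := g.tst.b1.bd
  (h.tr s.o).pr_dom (f.dom α) (g.sm.continuous.comp (by fun_prop)).measurable (fun _ => (b _).1)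
    fun _ => (abs_of_nonneg (g.nn _)).le

theorem Ok.ind_le (h : s.Ok U) (g : Ml ε c G) (y : E n) :
    P366K2.pr s.m s.π (s.θ s.o) (indicator {z | y - z ∈ tsupport G} 1) ≤
      ∫ x in closedBall y ε, s.u s.o G x := by
  obtain ⟨a, b⟩ := g.tst.b1.bd
  have i : Integrable (fun _ : E n => (1 : ℝ)) (volume.restrict (closedBall y ε)) :=
    integrableOn_const measure_closedBall_lt_top.ne
  have e := (h.tr s.o).fub g.sm.continuous (fun z => (b z).1) i
  simp only [mul_one] at e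
  have k : ∀ z, ∫ x, G (x - z) = 1 := fun z => (integral_sub_right_eq_self _ z).trans g.one
  have i2 : ∀ z, Integrable fun x => G (x - z) := fun z =>
    (g.sm.continuous.integrable_of_hasCompactSupport g.tst.cpt).comp_sub_right z
  rw [Sy.u, e]
  refine (le_abs_self _).trans (((h.tr s.o).pr_dom (K := 1) (c := 1)
    (fun w => by rw [abs_of_nonneg (h.nn w), one_mul]) ?_ (fun z => ?_) fun z => ?_).trans_eq
      (one_mul _))
  · exact ((g.sm.continuous.comp (continuous_snd.sub continuous_fst)).stronglyMeasurable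
      (f := fun p : E n × E n => G (p.2 - p.1))).integral_prod_right'.measurable
  · rw [abs_of_nonneg (integral_nonneg fun _ => g.nn _), ← k z]
    exact setIntegral_le_integral (i2 z) (.of_forall fun _ => g.nn _)
  · by_cases hz : y - z ∈ tsupport G
    · rw [indicator_of_mem (by exact hz), Pi.one_apply, abs_one, ← k z]
      refine (setIntegral_eq_integral_of_forall_compl_eq_zero fun x hx => ?_).ge
      refine image_eq_zero_of_notMem_tsupport fun hx' => hx ?_
      rw [mem_closedBall_iff_norm]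
      simpa [dist_eq_norm] using g.dm _ hx' _ hz
    · rw [indicator_of_notMem (by exact hz), abs_zero]
      exact integral_nonneg fun _ => g.nn _

theorem pd2_rfl (g : Tst V G) (a b : Fin n) (y : E n) :
    pd a (pd b fun z => G (y - z)) = fun z => pd a (pd b G) (y - z) := by
  have d := (g.pd b).b1.dif
  rw [pd_rfl g.b1.dif, show (fun z => -pd b G (y - z)) = fun z => (-pd b G) (y - z) from rfl,
    pd_rfl d.neg]
  funext z
  rw [pd_eq (d.neg _), fderiv_neg, pd_eq (d _)]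
  simp

variable (s) in
/-- The commutator kernel. -/
def ck (α : ι) (a b : Fin n) (β : ι) (G : E n → ℝ) (y z : E n) : ℝ :=
  ∑ k, (s.A α a b β k y - s.A α a b β k z) * pd k G (y - z) + s.B α a b β z * G (y - z)

theorem Cf.ck_le (f : s.Cf K L) (g : Ml ε c G) (e : 0 < ε) (hy : y ∈ K)
    (sp : ∀ z, y - z ∈ tsupport G → z ∈ K) (α : ι) (a b : Fin n) (β : ι) (z : E n) :
    |s.ck α a b β G y z| ≤
      L * c * (2 * n + 1) * ε⁻¹ ^ n * indicator {z | y - z ∈ tsupport G} 1 z := by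
  have L0 := zero_le_one.trans f.one
  by_cases hz : y - z ∈ tsupport G
  · rw [indicator_of_mem (by exact hz), Pi.one_apply, mul_one]
    have a1 : ∀ k, |(s.A α a b β k y - s.A α a b β k z) * pd k G (y - z)| ≤
        2 * (L * c * ε⁻¹ ^ n) := fun k => by
      rw [abs_mul]
      refine (mul_le_mul ((f.lA α a b β k y hy z (sp z hz)).trans (mul_le_mul_of_nonneg_left
        (mem_closedBall_zero_iff.1 (g.sp hz)) L0)) (g.le' k _) (abs_nonneg _)
        (by positivity)).trans_eq ?_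
      rw [pow_succ]
      field_simp
    have a2 : |s.B α a b β z * G (y - z)| ≤ L * (c * ε⁻¹ ^ n) := by
      rw [abs_mul, abs_of_nonneg (g.nn _)]
      exact mul_le_mul (f.bB α a b β z (sp z hz)) (g.le _) (g.nn _) L0
    have a3 := (Finset.abs_sum_le_sum_abs _ _).trans
      (Finset.sum_le_card_nsmul Finset.univ _ _ fun k _ => a1 k)
    rw [Finset.card_fin, nsmul_eq_mul] at a3
    exact (abs_add_le _ _).trans ((add_le_add a3 a2).trans_eq (by ring))
  · have k : ∀ k, pd k G (y - z) = 0 := fun k =>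
      image_eq_zero_of_notMem_tsupport fun k' => hz (pd_supp g.tst.b1.dif k k')
    simp [ck, indicator_of_notMem (show z ∉ {z | y - z ∈ tsupport G} from hz),
      image_eq_zero_of_notMem_tsupport hz, k]

theorem Ok.pr_ck (h : s.Ok U) (g : Tst V G) (T : Tst U fun z => G (y - z)) (α : ι) (a b : Fin n)
    (β : ι) : s.pr β (fun x => ∑ k, s.A α a b β k x * pd k (fun z => G (y - z)) x +
      s.B α a b β x * G (y - x)) =
      s.pr β (s.ck α a b β G y) - ∑ k, s.A α a b β k y * s.u β (pd k G) y := by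
  have t := h.tr β
  have i1 : ∀ k, Integrable (fun w => s.A α a b β k y * (pd k G (y - s.π w) * s.θ β w)) s.m :=
    fun k => (t.igc (φ := fun z => pd k G (y - z)) ((g.pd k).sm.continuous.comp
      (continuous_const.sub continuous_id)) (cpt_rfl (g.pd k).cpt y)).const_mul _
  have i2 : ∀ k, Integrable (fun w => s.A α a b β k (s.π w) * pd k (fun z => G (y - z)) (s.π w) *
      s.θ β w) s.m := fun k => t.igc (φ := fun x => s.A α a b β k x * pd k (fun z => G (y - z)) x)
    (cont_mul h.opn (h.sA α a b β k).continuousOn (T.pd k).sm.continuous (T.pd k).sub)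
    (T.pd k).cpt.mul_left
  have i3 : Integrable (fun w => s.B α a b β (s.π w) * G (y - s.π w) * s.θ β w) s.m :=
    t.igc (φ := fun x => s.B α a b β x * G (y - x))
      (cont_mul h.opn (h.sB α a b β).continuousOn T.sm.continuous T.sub) T.cpt.mul_left
  have i4 : Integrable (fun w => (∑ k, s.A α a b β k (s.π w) * pd k (fun z => G (y - z)) (s.π w) +
      s.B α a b β (s.π w) * G (y - s.π w)) * s.θ β w) s.m := by
    simp only [add_mul, Finset.sum_mul]
    exact (integrable_finsetSum _ fun k _ => i2 k).add i3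
  rw [eq_sub_iff_add_eq]
  simp only [Sy.u, ml, P366K2.pr, Sy.pr, ← integral_const_mul]
  rw [← integral_finsetSum _ fun k _ => i1 k, ← integral_add i4 (integrable_finsetSum _
    fun k _ => i1 k)]
  refine integral_congr_ae (.of_forall fun w => ?_)
  simp only [ck, pd_rfl g.b1.dif, sub_mul, Finset.sum_sub_distrib, add_mul, Finset.sum_mul, mul_neg,
    neg_mul, Finset.sum_neg_distrib, mul_assoc]
  ring

theorem Ml.c_nn (g : Ml ε c G) (e : 0 < ε) : 0 ≤ c :=
  nonneg_of_mul_nonneg_left ((g.nn 0).trans (g.le 0)) (by positivity)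

theorem Ok.pr_ck_le (h : s.Ok U) (f : s.Cf K L) (g : Ml ε c G) (e : 0 < ε) (hy : y ∈ K)
    (sp : ∀ z, y - z ∈ tsupport G → z ∈ K) (α : ι) (a b : Fin n) (β : ι) :
    |s.pr β (s.ck α a b β G y)| ≤ L * (L * c * (2 * n + 1)) * s.av ε G y := by
  have c0 := Ml.c_nn g e
  have L0 := zero_le_one.trans f.one
  have k1 := (h.tr s.o).pr_dom (f.dom β) (c := |L * c * (2 * n + 1) * ε⁻¹ ^ n|)
    (ψ := fun z => L * c * (2 * n + 1) * ε⁻¹ ^ n * indicator {z | y - z ∈ tsupport G} 1 z)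
    ((measurable_one.indicator (cl_rfl G y).measurableSet).const_mul _) (fun z => by
      rw [abs_mul]
      exact mul_le_of_le_one_right (abs_nonneg _) (by
        by_cases hz : z ∈ {z | y - z ∈ tsupport G} <;> simp [hz])) (f.ck_le g e hy sp α a b β)
  refine k1.trans ?_
  rw [mul_assoc L (L * c * _)]
  refine mul_le_mul_of_nonneg_left ?_ L0
  simp only [P366K2.pr, mul_assoc _ (indicator _ _ _), integral_const_mul]
  rw [av, ← mul_assoc]
  exact mul_le_mul_of_nonneg_left (h.ind_le g y) (by positivity)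

/-- The regularised equation. -/
theorem Ok.comm (h : s.Ok U) (f : s.Cf K L) (hK : K ⊆ U) (g : Ml ε c G) (e : 0 < ε) (hy : y ∈ K)
    (sp : ∀ z, y - z ∈ tsupport G → z ∈ K) (α : ι) (a b : Fin n) :
    |s.df α a b (fun z => G (y - z)) - s.u α (pd a (pd b G)) y| ≤
      L * s.Q G y + Fintype.card ι * (L * (L * c * (2 * n + 1))) * s.av ε G y := by
  have T := g.rfl fun z k => hK (sp z k)
  have L0 := zero_le_one.trans f.one
  rw [df, pd2_rfl g.tst, show s.pr α _ = s.u α (pd a (pd b G)) y from rfl, sub_sub_cancel_left,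
    abs_neg, Q, Finset.mul_sum, ← Finset.card_univ, mul_assoc, ← nsmul_eq_mul, ← Finset.sum_const,
    ← Finset.sum_add_distrib]
  refine (Finset.abs_sum_le_sum_abs _ _).trans (Finset.sum_le_sum fun β _ => ?_)
  have k1 := h.pr_ck_le f g e hy sp α a b β
  have k3 : |∑ k, s.A α a b β k y * s.u β (pd k G) y| ≤ L * ∑ k, |s.u β (pd k G) y| := by
    rw [Finset.mul_sum]
    refine (Finset.abs_sum_le_sum_abs _ _).trans (Finset.sum_le_sum fun k _ => ?_)
    rw [abs_mul]
    exact mul_le_mul_of_nonneg_right (f.bA α a b β k y hy) (abs_nonneg _)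
  rw [h.pr_ck g.tst T]
  refine (abs_sub _ _).trans ?_
  nlinarith [mul_nonneg L0 (abs_nonneg (s.u β G y))]

end Sy

end Vale.Agent.P366K2
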