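import Vale.Agent.P366K2.Defs
import Mathlib.MeasureTheory.Integral.RieszMarkovKakutani.Real
import Mathlib.Analysis.LocallyConvex.Separation

/-!
# P366K2: the multiplier
-/

open MeasureTheory Metric Filter Topology Set
open scoped ContDiff NNReal CompactlySupported

noncomputable section

namespace Vale.Agent.P366K2

theorem hbr : HBR := by
  intro K V _ _ _ _ _ hV c hc h0
  obtain ⟨v0⟩ := hV
  obtain ⟨x0, -⟩ := h0 v0
  have op : IsOpen {f : C(K, ℝ) | ∀ x, 0 < f x} := by
    have := ContinuousMap.isOpen_setOfPred_mapsTo (X := K) isCompact_univ (isOpen_Ioi (a := (0 : ℝ)))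
    simpa [MapsTo] using this
  obtain ⟨l, u, h1, h2⟩ := geometric_hahn_banach_open (s := {f : C(K, ℝ) | ∀ x, 0 < f x})
    (t := {f | ∃ v, ∀ x, f x ≤ c v x}) (fun f hf g hg a b ha hb e x => by
      have := hf x
      have := hg x
      simp only [ContinuousMap.add_apply, ContinuousMap.smul_apply, smul_eq_mul]
      rcases ha.eq_or_lt with rfl | ha
      · rw [zero_add] at e; simpa [e]
      · positivity) op (fun f ⟨v, hf⟩ g ⟨w, hg⟩ a b ha hb e => by
      obtain ⟨z, hz⟩ := hc v w a ⟨ha, by linarith⟩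
      refine ⟨z, fun x => le_trans ?_ (hz x)⟩
      simp only [ContinuousMap.add_apply, ContinuousMap.smul_apply, smul_eq_mul, ← e,
        add_sub_cancel_left]
      exact add_le_add (mul_le_mul_of_nonneg_left (hf x) ha) (mul_le_mul_of_nonneg_left (hg x) hb))
    (disjoint_left.2 fun f hf ⟨v, hv⟩ => let ⟨x, hx⟩ := h0 v; ((hf x).trans_le ((hv x).trans hx)).false)
  have k1 : ∀ f : C(K, ℝ), (∀ x, 0 < f x) → l f ≤ 0 := fun f hf => by
    by_contra k
    rw [not_le] at k
    have := h1 ((|u| / l f + 1) • f) fun x => mul_pos (by positivity) (hf x)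
    rw [map_smul, smul_eq_mul, add_mul, div_mul_cancel₀ _ k.ne'] at this
    linarith [le_abs_self u]
  have k2 : ∀ f : C(K, ℝ), (∀ x, 0 ≤ f x) → ∀ a, (∀ t > (0 : ℝ), l (f + t • 1) ≤ a) → l f ≤ a :=
    fun f _ a h => by
      have : Tendsto (fun t : ℝ => l (f + t • 1)) (𝓝[>] 0) (𝓝 (l f)) :=
        ((show Continuous fun t : ℝ => l (f + t • 1) by fun_prop).tendsto' 0 _
          (by simp)).mono_left nhdsWithin_le_nhds
      exact le_of_tendsto this (eventually_mem_nhdsWithin.mono h)
  have k3 : ∀ f : C(K, ℝ), (∀ x, 0 ≤ f x) → l f ≤ 0 := fun f hf => k2 f hf 0 fun t ht =>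
    k1 _ fun x => by simpa using add_pos_of_nonneg_of_pos (hf x) ht
  have k4 : 0 ≤ u := by
    simpa using k2 0 (fun _ => le_rfl) u fun t ht => (h1 _ fun x => by simpa using ht).le
  let Λ : C_c(K, ℝ) →ₚ[ℝ] ℝ := .mk₀
    { toFun := fun f => -l f.toContinuousMap
      map_add' := fun f g => by
        rw [show (f + g).toContinuousMap = f.toContinuousMap + g.toContinuousMap from rfl, map_add]
        ring
      map_smul' := fun a f => by
        rw [show (a • f).toContinuousMap = a • f.toContinuousMap from rfl, map_smul]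
        simp } fun f hf => neg_nonneg.2 (k3 _ hf)
  have e : ∀ f : C(K, ℝ), ∫ x, f x ∂RealRMK.rieszMeasure Λ = -l f := fun f =>
    RealRMK.integral_rieszMeasure Λ (CompactlySupportedContinuousMap.continuousMapEquiv f)
  generalize hμ : RealRMK.rieszMeasure Λ = μ at e
  have : IsFiniteMeasure μ := hμ ▸ inferInstance
  have : NeZero μ := ⟨fun z => by
    have a := h1 1 fun _ => one_pos
    have b := h2 (c v0) ⟨v0, fun _ => le_rfl⟩
    have := e 1
    have := e (c v0)
    simp only [z, integral_zero_measure] at *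
    linarith⟩
  refine ⟨(μ univ)⁻¹ • μ, inferInstance, fun v => ?_⟩
  rw [integral_smul_measure, e]
  exact smul_nonpos_of_nonneg_of_nonpos ENNReal.toReal_nonneg
    (by linarith [h2 (c v) ⟨v, fun _ => le_rfl⟩])

end Vale.Agent.P366K2
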