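import Vale.Agent.P366K2.Bd2
import Vale.Agent.P366K.Rep
import Vale.Agent.P366AP.Apr
import Vale.Agent.P366RB.Asm
import Vale.Agent.P366RB.Reg
import Vale.Agent.P366RB.Wsy
import Vale.Agent.P366RY.Conf
import Vale.Agent.P366RY.Coef
import Vale.Agent.P366TR.Trc
import Vale.Agent.P366GL.Main
import Vale.Agent.P366CU.Loc2

/-!
P366K2: the multipliers are functions; the closed form.
-/

namespace Vale.Agent.P366K2

theorem rpx : RPX := rpx_of (P366TR.trc P366RY.conf P366K.rep_)
  (P366CU.loc_of P366RB.reg (P366RB.regb_of P366AP.apr bdm) P366RB.smo (P366RB.wsy P366RY.coef)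
    P366K.rep_) P366GL.glue

end Vale.Agent.P366K2
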